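import Vale.Agent.P046.Defs

/-!
P046, lower bound: codegrees, isolated and heavy triangles, and what one removal does to them.
-/

open Finset

namespace Vale.Agent.P046.Lower

variable {α : Type*} [DecidableEq α] [Fintype α] {G : Finset (Finset α)} {t u k Δ e f g : Finset α}
  {B : ℕ}

/-- The triangles on a side. -/
def triAt (G : Finset (Finset α)) (e : Finset α) : Finset (Finset α) :=
  (tri G).filter fun t => e ∈ sides t

/-- The codegree. -/
def deg (G : Finset (Finset α)) (e : Finset α) : ℕ := (triAt G e).card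

/-- The isolated triangles. -/
def iso (G : Finset (Finset α)) : Finset (Finset α) :=
  (tri G).filter fun t => ∀ e ∈ sides t, deg G e = 1

/-- The edges on no triangle. -/
def zero (G : Finset (Finset α)) : Finset (Finset α) := G.filter fun e => deg G e = 0

/-- The triangles with a side of codegree above `B`. -/
def heavy (B : ℕ) (G : Finset (Finset α)) : Finset (Finset α) :=
  (tri G).filter fun t => ∃ e ∈ sides t, B < deg G e

theorem mem_tri : t ∈ tri G ↔ t.card = 3 ∧ sides t ⊆ G := by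
  simp [tri, mem_filter, mem_powersetCard]

omit [DecidableEq α] [Fintype α] in
theorem mem_sides {t e : Finset α} : e ∈ sides t ↔ e ⊆ t ∧ e.card = 2 := by
  simp [sides, mem_powersetCard]

theorem card_sides (ht : t ∈ tri G) : (sides t).card = 3 := by
  simp [sides, (mem_tri.1 ht).1]

theorem sides_nonempty (ht : t ∈ tri G) : (sides t).Nonempty :=
  card_pos.1 (by rw [card_sides ht]; norm_num)

theorem side_mem (ht : t ∈ tri G) (he : e ∈ sides t) : e ∈ G := (mem_tri.1 ht).2 he

theorem tri_sdiff : tri (G \ sides k) = (tri G).filter fun t => Disjoint (sides t) (sides k) := by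
  ext t
  simp only [mem_tri, mem_filter, subset_sdiff]
  tauto

theorem mem_tri_sdiff : t ∈ tri (G \ sides k) ↔ t ∈ tri G ∧ Disjoint (sides t) (sides k) := by
  rw [tri_sdiff, mem_filter]

theorem not_mem_tri_sdiff_self (hk : k ∈ tri G) : k ∉ tri (G \ sides k) := fun h => by
  obtain ⟨e, he⟩ := sides_nonempty hk
  exact (disjoint_left.1 (mem_tri_sdiff.1 h).2 he he)

theorem card_sdiff_sides (hk : k ∈ tri G) : (G \ sides k).card + 3 = G.card := by
  have h := card_sides hk
  have h2 := card_le_card (mem_tri.1 hk).2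
  rw [card_sdiff_of_subset (mem_tri.1 hk).2]
  omega

/-- Two different triangles share at most one side. -/
theorem eq_of_two_sides (ht : t ∈ tri G) (hu : u ∈ tri G) (he : e ∈ sides t) (hf : f ∈ sides t)
    (he' : e ∈ sides u) (hf' : f ∈ sides u) (hne : e ≠ f) : t = u := by
  rw [mem_sides] at he hf he' hf'
  have h3 : 3 ≤ (e ∪ f).card := by
    by_contra h
    rw [not_le] at h
    have h1 : e ∪ f = e := (eq_of_subset_of_card_le subset_union_left (by omega)).symm
    have h2 : e ∪ f = f := (eq_of_subset_of_card_le subset_union_right (by omega)).symm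
    exact hne (h1.symm.trans h2)
  have e1 := eq_of_subset_of_card_le (union_subset he.1 hf.1) (by rw [(mem_tri.1 ht).1]; exact h3)
  have e2 := eq_of_subset_of_card_le (union_subset he'.1 hf'.1) (by rw [(mem_tri.1 hu).1]; exact h3)
  exact e1.symm.trans e2

theorem triAt_sdiff_subset : triAt (G \ sides k) e ⊆ triAt G e := fun t ht => by
  simp only [triAt, mem_filter, mem_tri_sdiff] at ht ⊢
  exact ⟨ht.1.1, ht.2⟩

theorem deg_sdiff_le : deg (G \ sides k) e ≤ deg G e := card_le_card triAt_sdiff_subset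

theorem deg_pos (ht : t ∈ tri G) (he : e ∈ sides t) : 0 < deg G e :=
  card_pos.2 ⟨t, mem_filter.2 ⟨ht, he⟩⟩

theorem iso_unique (ht : t ∈ iso G) (hu : u ∈ iso G) (he : e ∈ sides t) (he' : e ∈ sides u) :
    t = u :=
  card_le_one.1 ((mem_filter.1 ht).2 e he).le t (mem_filter.2 ⟨(mem_filter.1 ht).1, he⟩) u
    (mem_filter.2 ⟨(mem_filter.1 hu).1, he'⟩)

/-- A triangle made isolated by the removal of `k` had a side on no other triangle. -/
theorem exists_deg_one (hΔ : Δ ∈ iso (G \ sides k)) : ∃ g ∈ sides Δ, deg G g = 1 := by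
  obtain ⟨hΔ', h1⟩ := mem_filter.1 hΔ
  obtain ⟨hΔG, hdis⟩ := mem_tri_sdiff.1 hΔ'
  by_contra hc
  push Not at hc
  have hmeet : ∀ e ∈ sides Δ, ∃ x ∈ e, x ∈ k := fun e he => by
    have h2 : 1 < deg G e := by have := deg_pos hΔG he; have := hc e he; omega
    obtain ⟨u, hu, hune⟩ := exists_mem_ne h2 Δ
    obtain ⟨huG, heu⟩ := mem_filter.1 hu
    obtain ⟨a, hau, hak⟩ : ∃ a ∈ sides u, a ∈ sides k := by
      by_contra hh
      push Not at hh
      have hu' : u ∈ triAt (G \ sides k) e :=
        mem_filter.2 ⟨mem_tri_sdiff.2 ⟨huG, disjoint_left.2 hh⟩, heu⟩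
      exact hune (card_le_one.1 (h1 e he).le u hu' Δ (mem_filter.2 ⟨hΔ', he⟩))
    rw [mem_sides] at heu hau hak
    by_contra hx
    push Not at hx
    have hd : Disjoint e a := disjoint_left.2 fun x hxe hxa => hx x hxe (hak.1 hxa)
    have := card_le_card (union_subset heu.1 hau.1)
    rw [card_union_of_disjoint hd, (mem_tri.1 huG).1] at this
    omega
  have h3 := (mem_tri.1 hΔG).1
  have h2 : 2 ≤ (Δ ∩ k).card := by
    by_contra hlt
    have : 2 ≤ (Δ \ k).card := by
      have := card_inter_add_card_sdiff Δ k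
      omega
    obtain ⟨e, he, hec⟩ := exists_subset_card_eq this
    obtain ⟨x, hxe, hxk⟩ := hmeet e (mem_sides.2 ⟨he.trans sdiff_subset, hec⟩)
    exact (mem_sdiff.1 (he hxe)).2 hxk
  obtain ⟨e, he, hec⟩ := exists_subset_card_eq h2
  exact disjoint_left.1 hdis (mem_sides.2 ⟨he.trans inter_subset_left, hec⟩)
    (mem_sides.2 ⟨he.trans inter_subset_right, hec⟩)

/-- Edges on no triangle stay so. -/
theorem zero_subset (hk : k ∈ tri G) : zero G ⊆ zero (G \ sides k) := fun e he => by
  obtain ⟨heG, h0⟩ := mem_filter.1 he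
  refine mem_filter.2 ⟨mem_sdiff.2 ⟨heG, fun h => ?_⟩, ?_⟩
  · exact (deg_pos hk h).ne' h0
  · have := deg_sdiff_le (G := G) (k := k) (e := e); omega

theorem heavy_sdiff_subset : heavy B (G \ sides k) ⊆ (heavy B G).filter fun t =>
    Disjoint (sides t) (sides k) := fun t ht => by
  obtain ⟨ht', e, he, hB⟩ := mem_filter.1 ht
  obtain ⟨htG, hd⟩ := mem_tri_sdiff.1 ht'
  exact mem_filter.2 ⟨mem_filter.2 ⟨htG, e, he, hB.trans_le deg_sdiff_le⟩, hd⟩

/-- The triangles newly isolated by the removal of `k`. -/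
def born (G : Finset (Finset α)) (k : Finset α) : Finset (Finset α) := iso (G \ sides k) \ iso G

/-- The edges whose last triangle the removal of `k` deletes. -/
def freed (G : Finset (Finset α)) (k : Finset α) : Finset (Finset α) :=
  zero (G \ sides k) \ zero G

/-- The heavy triangles that the removal of `k` deletes. -/
def lost (B : ℕ) (G : Finset (Finset α)) (k : Finset α) : Finset (Finset α) :=
  (heavy B G).filter fun t => ¬ Disjoint (sides t) (sides k)

theorem card_freed (hk : k ∈ tri G) :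
    (freed G k).card + (zero G).card = (zero (G \ sides k)).card :=
  card_sdiff_add_card_eq_card (zero_subset hk)

theorem card_lost :
    (lost B G k).card + (heavy B (G \ sides k)).card ≤ (heavy B G).card :=
  calc _ ≤ (lost B G k).card + ((heavy B G).filter fun t => Disjoint (sides t) (sides k)).card :=
        Nat.add_le_add_left (card_le_card heavy_sdiff_subset) _
    _ = _ := by rw [add_comm, lost, card_filter_add_card_filter_not]

/-- Newly isolated triangles are paid for by freed edges and lost heavy triangles. -/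
theorem sum_born_le :
    ∑ k ∈ tri G, (born G k).card ≤
      2 * B * ∑ k ∈ tri G, (freed G k).card + 3 * ∑ k ∈ tri G, (lost B G k).card := by
  classical
  set H : Finset α → Finset (Finset α) := fun k => (lost B G k).biUnion fun t =>
    (sides t).biUnion fun e => (iso (G \ sides k)).filter fun Δ => e ∈ sides Δ with hH
  have hHle : ∀ k, (H k).card ≤ 3 * (lost B G k).card := fun k => by
    refine (card_biUnion_le_card_mul _ _ 3 fun t ht => ?_).trans_eq (mul_comm _ _)
    have ht' := (mem_filter.1 (mem_filter.1 ht).1).1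
    refine (card_biUnion_le_card_mul _ _ 1 fun e _ => card_le_one.2 fun a ha b hb => ?_).trans
      (by rw [card_sides ht'])
    rw [mem_filter] at ha hb
    exact iso_unique ha.1 hb.1 ha.2 hb.2
  suffices h : ((tri G).sigma fun k => born G k \ H k).card ≤
      2 * B * ∑ k ∈ tri G, (freed G k).card by
    rw [card_sigma] at h
    calc ∑ k ∈ tri G, (born G k).card
        ≤ ∑ k ∈ tri G, ((born G k \ H k).card + 3 * (lost B G k).card) :=
          sum_le_sum fun k _ => by
            have := le_card_sdiff (H k) (born G k)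
            have := hHle k
            omega
      _ ≤ _ := by rw [sum_add_distrib, ← mul_sum]; exact Nat.add_le_add_right h _
  rw [← card_sigma, mul_comm (2 * B)]
  set fib : (Σ _ : Finset α, Finset α) → Finset (Σ _ : Finset α, Finset α) := fun q =>
    (((sides q.1).filter fun a => deg G a ≤ B).biUnion fun a => (triAt G a)).biUnion fun k =>
      ((triAt G q.2).filter fun Δ => Disjoint (sides Δ) (sides k) ∧
        ∃ e ∈ sides q.1, e ∈ sides Δ ∧ e ∉ sides k).image fun Δ => ⟨k, Δ⟩
  refine (card_le_card (t := ((((tri G).sigma fun u => freed G u).filter fun q =>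
    deg G q.2 = 1).biUnion fib)) ?_).trans ((card_biUnion_le_card_mul _ _ (2 * B) ?_).trans
      (Nat.mul_le_mul_right _ (card_filter_le _ _)))
  · rintro ⟨k, Δ⟩ hx
    obtain ⟨hk, hΔb⟩ := mem_sigma.1 hx
    obtain ⟨hΔb, hΔH⟩ := mem_sdiff.1 hΔb
    obtain ⟨hΔi, hΔn⟩ := mem_sdiff.1 hΔb
    obtain ⟨g, hg, hg1⟩ := exists_deg_one hΔi
    obtain ⟨hΔ', h1⟩ := mem_filter.1 hΔi
    obtain ⟨hΔG, hdis⟩ := mem_tri_sdiff.1 hΔ'
    obtain ⟨e, he, he1⟩ : ∃ e ∈ sides Δ, deg G e ≠ 1 := by
      by_contra hh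
      push Not at hh
      exact hΔn (mem_filter.2 ⟨hΔG, hh⟩)
    obtain ⟨u, hu, hune⟩ := exists_mem_ne
      (show 1 < deg G e by have := deg_pos hΔG he; omega) Δ
    obtain ⟨huG, heu⟩ := mem_filter.1 hu
    have hku : ¬ Disjoint (sides u) (sides k) := fun hd => hune
      (card_le_one.1 (h1 e he).le u (mem_filter.2 ⟨mem_tri_sdiff.2 ⟨huG, hd⟩, heu⟩) Δ
        (mem_filter.2 ⟨hΔ', he⟩))
    have hlight : ∀ a ∈ sides u, deg G a ≤ B := fun a ha => by
      by_contra hB
      exact hΔH (mem_biUnion.2 ⟨u, mem_filter.2 ⟨mem_filter.2 ⟨huG, a, ha, by omega⟩, hku⟩,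
        mem_biUnion.2 ⟨e, heu, mem_filter.2 ⟨hΔi, he⟩⟩⟩)
    obtain ⟨a, hau, hak⟩ := not_disjoint_iff.1 hku
    have hek : e ∉ sides k := disjoint_left.1 hdis he
    have hgu : g ∉ sides u := fun hgu => hune
      (eq_of_two_sides huG hΔG heu hgu he hg (fun h => by rw [h] at he1; exact he1 hg1))
    have hfreed : g ∈ freed G u := by
      refine mem_sdiff.2 ⟨mem_filter.2 ⟨mem_sdiff.2 ⟨side_mem hΔG hg, hgu⟩, ?_⟩,
        fun h0 => by rw [(mem_filter.1 h0).2] at hg1; omega⟩
      refine card_eq_zero.2 (eq_empty_iff_forall_notMem.2 fun v hv => ?_)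
      have hvΔ : v = Δ :=
        card_le_one.1 hg1.le v (triAt_sdiff_subset hv) Δ (mem_filter.2 ⟨hΔG, hg⟩)
      subst hvΔ
      exact disjoint_left.1 (mem_tri_sdiff.1 (mem_filter.1 hv).1).2 he heu
    refine mem_biUnion.2 ⟨⟨u, g⟩, mem_filter.2 ⟨mem_sigma.2 ⟨huG, hfreed⟩, hg1⟩, ?_⟩
    exact mem_biUnion.2 ⟨k, mem_biUnion.2 ⟨a, mem_filter.2 ⟨hau, hlight a hau⟩,
      mem_filter.2 ⟨hk, hak⟩⟩, mem_image.2 ⟨Δ, mem_filter.2
        ⟨mem_filter.2 ⟨hΔG, hg⟩, hdis, e, heu, he, hek⟩, rfl⟩⟩
  · rintro ⟨u, g⟩ hq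
    obtain ⟨hq, hd⟩ := mem_filter.1 hq
    have huG := (mem_sigma.1 hq).1
    obtain ⟨Δ, hΔ⟩ := card_eq_one.1 hd
    -- the picks: two sides of `u` off the triangle of `g`
    set E := (sides u).filter fun a => deg G a ≤ B with hE
    have hsub : fib ⟨u, g⟩ ⊆ ((E.filter fun a => a ∉ sides Δ).biUnion fun a => triAt G a).image
        fun k => (⟨k, Δ⟩ : Σ _ : Finset α, Finset α) := fun x hx => by
      obtain ⟨k, hk, hxk⟩ := mem_biUnion.1 hx
      obtain ⟨a, ha, hka⟩ := mem_biUnion.1 hk
      obtain ⟨v, hv, rfl⟩ := mem_image.1 hxk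
      obtain ⟨hv, hvd, -⟩ := mem_filter.1 hv
      rw [hΔ, mem_singleton] at hv
      subst hv
      exact mem_image.2 ⟨k, mem_biUnion.2 ⟨a, mem_filter.2 ⟨ha, fun h =>
        disjoint_left.1 hvd h (mem_filter.1 hka).2⟩, hka⟩, rfl⟩
    rcases (fib ⟨u, g⟩).eq_empty_or_nonempty with h0 | ⟨x, hx⟩
    · simp [h0]
    obtain ⟨k, -, hxk⟩ := mem_biUnion.1 hx
    obtain ⟨v, hv, -⟩ := mem_image.1 hxk
    obtain ⟨hv, -, e, heu, hev, -⟩ := mem_filter.1 hv
    rw [hΔ, mem_singleton] at hv
    subst hv
    have hcard : (E.filter fun a => a ∉ sides v).card ≤ 2 := by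
      have h1 : E.filter (fun a => a ∉ sides v) ⊆ (sides u).erase e := fun a ha => by
        obtain ⟨ha, hav⟩ := mem_filter.1 ha
        exact mem_erase.2 ⟨fun h => hav (h ▸ hev), (mem_filter.1 ha).1⟩
      have := card_le_card h1
      rw [card_erase_of_mem heu, card_sides huG] at this
      exact this
    refine (card_le_card hsub).trans (card_image_le.trans
      ((card_biUnion_le_card_mul _ _ B fun a ha => ?_).trans (Nat.mul_le_mul_right B hcard)))
    exact (mem_filter.1 (mem_filter.1 ha).1).2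

end Vale.Agent.P046.Lower
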