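import Vale.Agent.P046.Lower.Basic

/-! P046 lower bound: the first picks after a balanced stage. Few edges lose most of their
triangles, and triangles on an edge of very large codegree die. -/

open Finset

namespace Vale.Agent.P046.Lower

variable {α : Type*} [DecidableEq α] [Fintype α]

/-- The codegree sum over the sides of a triple. -/
def ssum (G : Finset (Finset α)) (t : Finset α) : ℕ := ∑ e ∈ sides t, deg G e

theorem tri_mono {G H : Finset (Finset α)} (h : H ⊆ G) : tri H ⊆ tri G := fun t ht => by
  rw [mem_tri] at ht ⊢; exact ⟨ht.1, ht.2.trans h⟩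

theorem deg_mono {G H : Finset (Finset α)} (h : tri H ⊆ tri G) (e : Finset α) :
    deg H e ≤ deg G e :=
  card_le_card (filter_subset_filter _ h)

theorem sum_deg (G : Finset (Finset α)) : ∑ e ∈ G, deg G e = 3 * (tri G).card := by
  simp only [deg, triAt, card_filter]
  rw [sum_comm, mul_comm, ← smul_eq_mul, ← sum_const]
  refine sum_congr rfl fun t ht => ?_
  rw [← card_filter, filter_mem_eq_inter, inter_eq_right.2 (mem_tri.1 ht).2, card_sides ht]

/-- Triangles meeting a given triangle in a side: at most its codegree sum. -/
theorem card_meet_le (G : Finset (Finset α)) (u : Finset α) :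
    ((tri G).filter fun t => ¬ Disjoint (sides u) (sides t)).card ≤ ssum G u := by
  refine le_trans (card_le_card ?_) (card_biUnion_le (s := sides u)
    (t := fun e => (tri G).filter fun t => e ∈ sides t))
  intro t ht
  obtain ⟨h1, h2⟩ := mem_filter.1 ht
  obtain ⟨e, he, he'⟩ := not_disjoint_iff.1 h2
  exact mem_biUnion.2 ⟨e, he, mem_filter.2 ⟨h1, he'⟩⟩

theorem deg_le_card_meet (G : Finset (Finset α)) {u e : Finset α} (he : e ∈ sides u) :
    deg G e ≤ ((tri G).filter fun t => ¬ Disjoint (sides u) (sides t)).card :=
  card_le_card fun t ht => mem_filter.2 ⟨(mem_filter.1 ht).1,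
    not_disjoint_iff.2 ⟨e, he, (mem_filter.1 ht).2⟩⟩

/-! ### Averages over picks -/

/-- The average of `φ` over one pick; nothing happens if there is no triangle. -/
noncomputable def avg (G : Finset (Finset α)) (φ : Finset (Finset α) → ℝ) : ℝ :=
  if (tri G).Nonempty then (∑ t ∈ tri G, φ (G \ sides t)) / ((tri G).card : ℝ) else φ G

/-- The average of `φ` after `k` picks. -/
noncomputable def run (φ : Finset (Finset α) → ℝ) : ℕ → Finset (Finset α) → ℝ
  | 0, G => φ G
  | k + 1, G => avg G (run φ k)

theorem avg_leave (G : Finset (Finset α)) : avg G leave = leave G := by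
  conv_rhs => rw [leave]
  unfold avg
  split_ifs with h
  · rw [sum_attach _ fun t => leave (G \ sides t)]
  · conv_lhs => rw [leave, if_neg h]

theorem avg_le {G : Finset (Finset α)} {φ ψ : Finset (Finset α) → ℝ}
    (h : ∀ t ∈ tri G, φ (G \ sides t) ≤ ψ (G \ sides t)) (h0 : φ G ≤ ψ G) :
    avg G φ ≤ avg G ψ := by
  unfold avg
  split_ifs
  · exact div_le_div_of_nonneg_right (sum_le_sum h) (Nat.cast_nonneg _)
  · exact h0

theorem avg_affine (G : Finset (Finset α)) (φ ψ : Finset (Finset α) → ℝ) (a b c : ℝ) :
    avg G (fun H => a + b * φ H + c * ψ H) = a + b * avg G φ + c * avg G ψ := by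
  unfold avg
  split_ifs with h
  · have : ((tri G).card : ℝ) ≠ 0 := Nat.cast_ne_zero.2 h.card_pos.ne'
    rw [sum_add_distrib, sum_add_distrib, sum_const, nsmul_eq_mul, ← mul_sum, ← mul_sum]
    field_simp
  · rfl

theorem run_leave (k : ℕ) (G : Finset (Finset α)) : run leave k G = leave G := by
  induction k generalizing G with
  | zero => rfl
  | succ k ih =>
    show avg G (run leave k) = leave G
    rw [funext ih, avg_leave]

theorem run_affine (φ ψ : Finset (Finset α) → ℝ) (a b c : ℝ) (k : ℕ) (G : Finset (Finset α)) :
    run (fun H => a + b * φ H + c * ψ H) k G = a + b * run φ k G + c * run ψ k G := by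
  induction k generalizing G with
  | zero => rfl
  | succ k ih =>
    show avg G _ = a + b * avg G _ + c * avg G _
    rw [funext ih, avg_affine]

theorem run_le {φ ψ : Finset (Finset α) → ℝ} (k : ℕ) (G : Finset (Finset α))
    (h : ∀ H, H ⊆ G → G.card ≤ H.card + 3 * k → φ H ≤ ψ H) : run φ k G ≤ run ψ k G := by
  induction k generalizing G with
  | zero => exact h G subset_rfl (by omega)
  | succ k ih =>
    refine avg_le (fun t ht => ih _ fun H hH hc => h H (hH.trans sdiff_subset) ?_)
      (ih G fun H hH hc => h H hH (by omega))
    have := card_sdiff_sides ht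
    omega

theorem run_const_le (k : ℕ) (G : Finset (Finset α)) {φ : Finset (Finset α) → ℝ} (q : ℝ) {c : ℝ}
    (hc : 0 ≤ c) (hstep : ∀ H, H ⊆ G → avg H φ ≤ c * φ H + q) :
    run φ k G ≤ c ^ k * φ G + (∑ i ∈ range k, c ^ i) * q := by
  induction k generalizing G with
  | zero => simp [run]
  | succ k ih =>
    show avg G (run φ k) ≤ _
    set g := (∑ i ∈ range k, c ^ i) * q
    have h1 : avg G (run φ k) ≤ avg G (fun H => g + c ^ k * φ H + 0 * φ H) :=
      avg_le (fun t _ => by linarith [ih (G \ sides t) fun H hH => hstep H (hH.trans sdiff_subset)])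
        (by linarith [ih G hstep])
    rw [avg_affine] at h1
    have h2 := mul_le_mul_of_nonneg_left (hstep G subset_rfl) (pow_nonneg hc k)
    rw [sum_range_succ, add_mul, pow_succ]
    linarith

/-- The edges in at most one triangle. -/
def low (G : Finset (Finset α)) : Finset (Finset α) := G.filter fun e => deg G e ≤ 1

theorem avg_heavy_le {G H : Finset (Finset α)} (hH : H ⊆ G) (B : ℕ) :
    avg H (fun K => ((heavy B K).card : ℝ)) ≤
      Real.exp (-((B : ℝ) / (tri G).card)) * (heavy B H).card := by
  unfold avg
  split_ifs with h
  · have hT : (0 : ℝ) < (tri H).card := Nat.cast_pos.2 h.card_pos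
    have hTT : ((tri H).card : ℝ) ≤ (tri G).card := by exact_mod_cast card_le_card (tri_mono hH)
    have key : (∑ t ∈ tri H, (heavy B (H \ sides t)).card) + B * (heavy B H).card ≤
        (tri H).card * (heavy B H).card := by
      calc _ ≤ (∑ t ∈ tri H, ((heavy B H).filter fun u => Disjoint (sides u) (sides t)).card) +
            B * (heavy B H).card :=
            Nat.add_le_add_right (sum_le_sum fun t _ => card_le_card heavy_sdiff_subset) _
        _ ≤ _ := by
            simp only [card_filter]
            rw [sum_comm, mul_comm, ← smul_eq_mul, ← sum_const, ← sum_add_distrib, mul_comm,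
              ← smul_eq_mul, ← sum_const]
            refine sum_le_sum fun u hu => ?_
            obtain ⟨-, e, he, hB⟩ := mem_filter.1 hu
            rw [← card_filter]
            have h1 := card_filter_add_card_filter_not (s := tri H)
              (fun t => Disjoint (sides u) (sides t))
            have h2 := deg_le_card_meet H he
            omega
    have key' : (∑ t ∈ tri H, ((heavy B (H \ sides t)).card : ℝ)) ≤
        (((tri H).card : ℝ) - B) * (heavy B H).card := by
      have : ((∑ t ∈ tri H, (heavy B (H \ sides t)).card : ℕ) : ℝ) + B * (heavy B H).card ≤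
          (tri H).card * (heavy B H).card := by exact_mod_cast key
      push_cast at this
      linarith
    rw [div_le_iff₀ hT]
    refine key'.trans ?_
    rw [mul_right_comm]
    refine mul_le_mul_of_nonneg_right ?_ (Nat.cast_nonneg _)
    have h1 : 1 - (B : ℝ) / (tri G).card ≤ Real.exp (-((B : ℝ) / (tri G).card)) := by
      linarith [Real.add_one_le_exp (-((B : ℝ) / (tri G).card))]
    have h2 : (B : ℝ) / (tri G).card * (tri H).card ≤ B := by
      rw [div_mul_eq_mul_div, div_le_iff₀ (hT.trans_le hTT)]
      exact mul_le_mul_of_nonneg_left hTT (Nat.cast_nonneg _)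
    nlinarith [mul_le_mul_of_nonneg_right h1 hT.le]
  · have : heavy B H = ∅ := by rw [heavy, not_nonempty_iff_eq_empty.1 h, filter_empty]
    simp [this]

theorem run_heavy_le (G : Finset (Finset α)) (B k : ℕ) :
    run (fun K => ((heavy B K).card : ℝ)) k G ≤
      Real.exp (-(k * ((B : ℝ) / (tri G).card))) * (heavy B G).card := by
  refine (run_const_le (c := Real.exp (-((B : ℝ) / (tri G).card))) k G 0 (Real.exp_nonneg _)
    fun H hH => ?_).trans (le_of_eq ?_)
  · rw [add_zero]; exact avg_heavy_le hH B
  · rw [mul_zero, add_zero, ← Real.exp_nat_mul]; congr 2; ring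

/-- The triangles of small codegree sum. -/
def light (G : Finset (Finset α)) (R : ℕ) : Finset (Finset α) :=
  (tri G).filter fun t => ssum G t ≤ R

theorem avg_dead_le {G H : Finset (Finset α)} (hH : H ⊆ G) (R : ℕ) :
    avg H (fun K => ((light G R \ tri K).card : ℝ)) ≤ 1 * (light G R \ tri H).card + R := by
  rw [one_mul]
  unfold avg
  split_ifs with h
  · have hT : (0 : ℝ) < (tri H).card := Nat.cast_pos.2 h.card_pos
    have key : ∑ t ∈ tri H, (light G R \ tri (H \ sides t)).card ≤
        (tri H).card * (light G R \ tri H).card + (tri H).card * R := by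
      calc _ ≤ ∑ t ∈ tri H, ((light G R \ tri H).card +
            ((light G R ∩ tri H).filter fun u => ¬ Disjoint (sides u) (sides t)).card) := by
            refine sum_le_sum fun t _ => (card_le_card ?_).trans (card_union_le _ _)
            intro u hu
            obtain ⟨h1, h2⟩ := mem_sdiff.1 hu
            by_cases h3 : u ∈ tri H
            · exact mem_union_right _ (mem_filter.2 ⟨mem_inter.2 ⟨h1, h3⟩,
                fun hd => h2 (mem_tri_sdiff.2 ⟨h3, hd⟩)⟩)
            · exact mem_union_left _ (mem_sdiff.2 ⟨h1, h3⟩)
        _ ≤ _ := by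
            rw [sum_add_distrib, sum_const, smul_eq_mul]
            simp only [card_filter]
            refine Nat.add_le_add_left ?_ _
            rw [sum_comm]
            refine le_trans (sum_le_card_nsmul _ _ R fun u hu => ?_) ?_
            · rw [← card_filter]
              exact (card_meet_le H u).trans ((sum_le_sum fun e _ => deg_mono (tri_mono hH) e).trans
                (mem_filter.1 (mem_inter.1 hu).1).2)
            · rw [smul_eq_mul]
              exact Nat.mul_le_mul_right R (card_le_card inter_subset_right)
    rw [div_le_iff₀ hT]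
    have : ((∑ t ∈ tri H, (light G R \ tri (H \ sides t)).card : ℕ) : ℝ) ≤
        (tri H).card * (light G R \ tri H).card + (tri H).card * R := by exact_mod_cast key
    push_cast at this
    linarith
  · simp

theorem run_dead_le (G : Finset (Finset α)) (R k : ℕ) :
    run (fun K => ((light G R \ tri K).card : ℝ)) k G ≤ k * R := by
  refine (run_const_le k G (R : ℝ) zero_le_one fun H hH => avg_dead_le hH R).trans (le_of_eq ?_)
  have : light G R \ tri G = ∅ := sdiff_eq_empty_iff_subset.2 (filter_subset _ _)
  simp [this]

/-- Few edges are low after picks which kill few triangles of small codegree sum. -/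
theorem low_le {G H : Finset (Finset α)} (hH : H ⊆ G) (a R : ℕ) :
    a * (low H).card ≤ a * (G.filter fun e => deg G e ≤ a).card +
      3 * ((tri G).filter fun t => R < ssum G t).card + 3 * (light G R \ tri H).card := by
  have h1 : a * (low H).card ≤ a * (G.filter fun e => deg G e ≤ a).card +
      ∑ e ∈ G, ((tri G \ tri H).filter fun t => e ∈ sides t).card := by
    calc a * (low H).card = ∑ e ∈ low H, a := by rw [sum_const, smul_eq_mul, mul_comm]
      _ ≤ ∑ e ∈ G, ((if deg G e ≤ a then a else 0) +
            ((tri G \ tri H).filter fun t => e ∈ sides t).card) := by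
          refine le_trans (sum_le_sum fun e he => ?_)
            (sum_le_sum_of_subset ((filter_subset _ _).trans hH))
          have h2 := (mem_filter.1 he).2
          split_ifs with h3
          · omega
          · have h4 : deg G e ≤ deg H e + ((tri G \ tri H).filter fun t => e ∈ sides t).card := by
              refine le_trans (card_le_card fun t ht => ?_) (card_union_le _ _)
              obtain ⟨p, q⟩ := mem_filter.1 ht
              by_cases hp : t ∈ tri H
              · exact mem_union_left _ (mem_filter.2 ⟨hp, q⟩)
              · exact mem_union_right _ (mem_filter.2 ⟨mem_sdiff.2 ⟨p, hp⟩, q⟩)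
            omega
      _ = _ := by
          rw [sum_add_distrib, ← sum_filter, sum_const, smul_eq_mul, mul_comm _ a]
  have h5 : ∑ e ∈ G, ((tri G \ tri H).filter fun t => e ∈ sides t).card ≤
      3 * (tri G \ tri H).card := by
    simp only [card_filter]
    rw [sum_comm, mul_comm, ← smul_eq_mul, ← sum_const]
    refine sum_le_sum fun t ht => ?_
    rw [← card_filter]
    exact (card_le_card fun e he => (mem_filter.1 he).2).trans
      (card_sides (mem_sdiff.1 ht).1).le
  have h6 : (tri G \ tri H).card ≤
      ((tri G).filter fun t => R < ssum G t).card + (light G R \ tri H).card := by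
    refine le_trans (card_le_card fun t ht => ?_) (card_union_le _ _)
    obtain ⟨p, q⟩ := mem_sdiff.1 ht
    rcases le_or_gt (ssum G t) R with h | h
    · exact mem_union_right _ (mem_sdiff.2 ⟨mem_filter.2 ⟨p, h⟩, q⟩)
    · exact mem_union_left _ (mem_filter.2 ⟨p, h⟩)
  omega

/-- Triangles with a large codegree sum are few if large codegrees carry little weight. -/
theorem card_big_le (G : Finset (Finset α)) (A : ℕ) :
    ((tri G).filter fun t => ∃ e ∈ sides t, A < deg G e).card ≤
      ∑ e ∈ G.filter (fun e => A < deg G e), deg G e := by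
  refine le_trans (card_le_card ?_) (card_biUnion_le
    (s := G.filter fun e => A < deg G e) (t := fun e => (tri G).filter fun t => e ∈ sides t))
  intro t ht
  obtain ⟨p, e, he, hA⟩ := mem_filter.1 ht
  exact mem_biUnion.2 ⟨e, mem_filter.2 ⟨(mem_tri.1 p).2 he, hA⟩, mem_filter.2 ⟨p, he⟩⟩

theorem exists_big_of_ssum {G : Finset (Finset α)} {t : Finset α} {A : ℕ} (ht : t ∈ tri G)
    (h : 3 * A < ssum G t) : ∃ e ∈ sides t, A < deg G e := by
  by_contra hh
  push Not at hh
  have := sum_le_card_nsmul _ _ A hh
  rw [card_sides ht, smul_eq_mul] at this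
  have h' : 3 * A < (sides t).sum (deg G) := h
  linarith

end Vale.Agent.P046.Lower
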