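import Vale.Agent.P046.Lower.Main
import Vale.Agent.P046.Step

/-! P046 lower bound: the one-step bound comes from the upper-bound potential. -/

open Finset

namespace Vale.Agent.P046.Lower

variable {α : Type*} [DecidableEq α] [Fintype α]

theorem shape_eq (G : Finset (Finset α)) (Y : ℝ) :
    shape G Y = ∑ e ∈ G, phi (Vale.Agent.P046.zeta G Y e - 1) := rfl

theorem stepBound : StepBound α := by
  intro G Y hY hT
  rcases (tri G).eq_empty_or_nonempty with h | h
  · rw [avg, if_neg (by simp [h]), h]
    simp
  · have hT0 : (0 : ℝ) < (tri G).card := Nat.cast_pos.2 h.card_pos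
    have h1 := Vale.Agent.P046.inner_step hY hT h
    rw [avg, if_pos h, div_le_iff₀ hT0]
    refine le_trans h1 (le_of_eq ?_)
    rw [← shape_eq]
    field_simp

/-- `E F_n` is at least of order `n ^ (3/2) / (log n) ^ 4`. -/
theorem leave_complete_ge :
    ∃ c : ℝ, 0 < c ∧ ∀ᶠ n : ℕ in Filter.atTop,
      c * ((n : ℝ) * √n) / Real.log n ^ 4 ≤ leave (complete n) :=
  leave_complete_lower fun _ => stepBound

end Vale.Agent.P046.Lower
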