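import Vale.Agent.P046.Lower.Basic

/-!
P046, lower bound: the universal leave lemma. For every edge set `G`, every number `i` of removals
and every `B`, with `M = |G| - 3 i`:
`M / 3 ≤ (2 B + 2/3) leave G + (M / |G|)^3 |tri G| + |iso G| + 3 |heavy B G|`.
-/

open Finset

namespace Vale.Agent.P046.Lower

variable {α : Type*} [DecidableEq α] [Fintype α] {G : Finset (Finset α)} {k t : Finset α} {B : ℕ}

/-- The recursion of `leave`. -/
theorem leave_mul (h : (tri G).Nonempty) :
    ((tri G).card : ℝ) * leave G = ∑ k ∈ tri G, leave (G \ sides k) := by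
  conv_lhs => rw [leave]
  rw [if_pos h, mul_div_cancel₀ _ (Nat.cast_ne_zero.2 h.card_pos.ne'), sum_attach (tri G)
    fun k => leave (G \ sides k)]

theorem leave_eq_card (h : tri G = ∅) : leave G = G.card := by
  rw [leave, if_neg (by simp [h])]

theorem zero_eq_self (h : tri G = ∅) : zero G = G :=
  filter_true_of_mem fun e _ => by simp [deg, triAt, h]

theorem card_iso_le : (iso G).card ≤ (tri G).card := card_filter_le _ _

/-- Isolated triangles only appear by `born`, and the chosen one disappears. -/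
theorem card_iso_sdiff (hk : k ∈ tri G) :
    (iso (G \ sides k)).card + (if k ∈ iso G then 1 else 0) ≤ (iso G).card + (born G k).card := by
  have hk' : k ∉ iso (G \ sides k) := fun h =>
    not_mem_tri_sdiff_self hk (mem_filter.1 h).1
  have h1 : (iso (G \ sides k) ∩ iso G).card + (if k ∈ iso G then 1 else 0) ≤ (iso G).card := by
    split_ifs with h
    · have := card_le_card (show iso (G \ sides k) ∩ iso G ⊆ (iso G).erase k from fun x hx =>
        mem_erase.2 ⟨ne_of_mem_of_not_mem (mem_inter.1 hx).1 hk', (mem_inter.1 hx).2⟩)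
      rw [card_erase_of_mem h] at this
      have := card_pos.2 ⟨k, h⟩
      omega
    · simpa using card_le_card inter_subset_right
  have := card_inter_add_card_sdiff (iso (G \ sides k)) (iso G)
  rw [born]
  omega

/-- A pick deletes itself, and one more triangle unless it is isolated. -/
theorem card_tri_sdiff (hk : k ∈ tri G) :
    (tri (G \ sides k)).card + 2 ≤ (tri G).card + if k ∈ iso G then 1 else 0 := by
  have hsub : tri (G \ sides k) ⊆ (tri G).erase k := fun x hx =>
    mem_erase.2 ⟨ne_of_mem_of_not_mem hx (not_mem_tri_sdiff_self hk), (mem_tri_sdiff.1 hx).1⟩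
  have hpos := card_pos.2 ⟨k, hk⟩
  split_ifs with h
  · have := card_le_card hsub
    rw [card_erase_of_mem hk] at this
    omega
  · obtain ⟨e, he, he1⟩ : ∃ e ∈ sides k, deg G e ≠ 1 := by
      by_contra hh
      push Not at hh
      exact h (mem_filter.2 ⟨hk, hh⟩)
    obtain ⟨u, hu, hune⟩ := exists_mem_ne
      (show 1 < deg G e by have := deg_pos hk he; omega) k
    obtain ⟨huG, heu⟩ := mem_filter.1 hu
    have hsub2 : tri (G \ sides k) ⊆ ((tri G).erase k).erase u := fun x hx =>
      mem_erase.2 ⟨fun hh => by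
        subst hh
        exact disjoint_left.1 (mem_tri_sdiff.1 hx).2 heu he, hsub hx⟩
    have hu2 : u ∈ (tri G).erase k := mem_erase.2 ⟨hune, huG⟩
    have := card_le_card hsub2
    rw [card_erase_of_mem hu2, card_erase_of_mem hk] at this
    have := card_pos.2 ⟨u, hu2⟩
    rw [card_erase_of_mem hk] at this
    omega

/-- The paid-for quantity. -/
noncomputable def pay (B : ℕ) (G : Finset (Finset α)) : ℝ :=
  (iso G).card + 2 * B * (leave G - (zero G).card) + 3 * (heavy B G).card

/-- The removals are paid for on average. -/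
theorem sum_pay_le (h : (tri G).Nonempty) :
    ∑ k ∈ tri G, (pay B (G \ sides k) + (if k ∈ iso G then (1 : ℝ) else 0)) ≤
      (tri G).card * pay B G := by
  have hb : ((∑ k ∈ tri G, (born G k).card : ℕ) : ℝ) ≤
      ((2 * B * ∑ k ∈ tri G, (freed G k).card + 3 * ∑ k ∈ tri G, (lost B G k).card : ℕ) : ℝ) :=
    Nat.cast_le.2 sum_born_le
  push_cast at hb
  have hk : ∀ k ∈ tri G, pay B (G \ sides k) + (if k ∈ iso G then (1 : ℝ) else 0) ≤
      ((iso G).card + 2 * (B : ℝ) * (leave (G \ sides k) - (zero G).card) + 3 * (heavy B G).card) +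
        (((born G k).card : ℝ) - 2 * B * (freed G k).card - 3 * (lost B G k).card) := fun k hk => by
    have hI := (Nat.cast_le (α := ℝ)).2 (card_iso_sdiff hk)
    have hZ := congrArg (fun n : ℕ => (n : ℝ)) (card_freed hk)
    have hH := (Nat.cast_le (α := ℝ)).2 (card_lost (G := G) (k := k) (B := B))
    push_cast at hI hZ hH
    have hZ2 := congrArg (fun r : ℝ => (B : ℝ) * r) hZ
    simp only [pay]
    linarith
  refine (sum_le_sum hk).trans ?_
  simp only [sum_add_distrib, sum_sub_distrib, sum_const, nsmul_eq_mul, ← mul_sum, ← leave_mul h,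
    pay]
  linarith

/-- Every removed triangle costs two units of `tri + pay`. -/
theorem two_picks_le (B : ℕ) (G : Finset (Finset α)) :
    2 * ((G.card : ℝ) - leave G) / 3 ≤ (tri G).card + pay B G := by
  induction hn : G.card using Nat.strong_induction_on generalizing G with
  | _ n ih =>
    subst hn
    rcases (tri G).eq_empty_or_nonempty with h | h
    · rw [leave_eq_card h, pay, zero_eq_self h, leave_eq_card h, h]
      simp only [sub_self, mul_zero, zero_div, card_empty, Nat.cast_zero, zero_add, add_zero]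
      positivity
    · have hk : ∀ k ∈ tri G, 2 * ((G.card : ℝ) - leave (G \ sides k)) / 3 ≤
          (tri G).card + (pay B (G \ sides k) + (if k ∈ iso G then (1 : ℝ) else 0)) := fun k hk => by
        have h1 := ih _ (card_removed_lt hk) (G \ sides k) rfl
        have hc := congrArg (fun n : ℕ => (n : ℝ)) (card_sdiff_sides hk)
        have hT := (Nat.cast_le (α := ℝ)).2 (card_tri_sdiff hk)
        push_cast at hc hT
        linarith
      have hsum := (sum_le_sum hk).trans_eq (sum_add_distrib)
      have hp := sum_pay_le (B := B) h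
      have hT : 0 < ((tri G).card : ℝ) := Nat.cast_pos.2 h.card_pos
      simp only [← sum_div, ← mul_sum, sum_sub_distrib, sum_const, nsmul_eq_mul,
        ← leave_mul h] at hsum
      refine le_of_mul_le_mul_left ?_ hT
      calc ((tri G).card : ℝ) * (2 * ((G.card : ℝ) - leave G) / 3)
          = 2 * ((tri G).card * (G.card : ℝ) - (tri G).card * leave G) / 3 := by ring
        _ ≤ _ := hsum
        _ ≤ ((tri G).card : ℝ) * (tri G).card + (tri G).card * pay B G :=
            add_le_add le_rfl hp
        _ = _ := by ring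

/-- The deleted triangles, counted by the sides of the chosen one. -/
theorem sum_deg_le (hk : k ∈ tri G) :
    ∑ e ∈ sides k, (deg G e : ℝ) + (tri (G \ sides k)).card ≤ (tri G).card + 2 := by
  have h1 : ∑ e ∈ sides k, deg G e = ∑ u ∈ tri G, ((sides k).filter fun e => e ∈ sides u).card := by
    simp only [deg, triAt, card_filter]
    exact sum_comm
  have h2 : ∀ u ∈ tri G, ((sides k).filter fun e => e ∈ sides u).card ≤
      (if Disjoint (sides u) (sides k) then 0 else 1) + (if u = k then 2 else 0) := fun u hu => by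
    by_cases hd : Disjoint (sides u) (sides k)
    · rw [if_pos hd, filter_false_of_mem fun e he h => disjoint_left.1 hd h he, card_empty]
      exact Nat.zero_le _
    rw [if_neg hd]
    by_cases hu' : u = k
    · rw [if_pos hu']
      exact (card_filter_le _ _).trans (by rw [card_sides hk])
    rw [if_neg hu']
    exact card_le_one.2 fun e he f hf => by
      by_contra hne
      simp only [mem_filter] at he hf
      exact hu' (eq_of_two_sides hu hk he.2 hf.2 he.1 hf.1 hne)
  have h3 : ∑ u ∈ tri G, ((if Disjoint (sides u) (sides k) then 0 else 1) +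
      (if u = k then 2 else 0)) + (tri (G \ sides k)).card = (tri G).card + 2 := by
    rw [sum_add_distrib, sum_ite_eq', if_pos hk, sum_ite, sum_const_zero, zero_add, sum_const,
      smul_eq_mul, mul_one, tri_sdiff]
    have := card_filter_add_card_filter_not (s := tri G) fun u => Disjoint (sides u) (sides k)
    omega
  have h4 : ∑ e ∈ sides k, deg G e + (tri (G \ sides k)).card ≤ (tri G).card + 2 :=
    (Nat.add_le_add_right (h1.trans_le (sum_le_sum h2)) _).trans_eq h3
  exact_mod_cast h4

/-- Mean drift of the number of triangles. -/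
theorem sum_tri_le : ∑ k ∈ tri G, ((tri (G \ sides k)).card : ℝ) ≤
    (tri G).card * ((tri G).card * (1 - 9 / (G.card : ℝ)) + 2) := by
  set T := ((tri G).card : ℝ)
  set m := (G.card : ℝ)
  have hswap : ∀ f : Finset α → ℝ, ∑ k ∈ tri G, ∑ e ∈ sides k, f e = ∑ e ∈ G, deg G e * f e :=
    fun f => by
    calc ∑ k ∈ tri G, ∑ e ∈ sides k, f e
        = ∑ k ∈ tri G, ∑ e ∈ G, if e ∈ sides k then f e else 0 := sum_congr rfl fun k hk => by
          rw [← sum_filter, filter_mem_eq_inter, inter_eq_right.2 (mem_tri.1 hk).2]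
      _ = _ := by
          rw [sum_comm]
          refine sum_congr rfl fun e _ => ?_
          rw [← sum_filter, sum_const, nsmul_eq_mul]
          rfl
  have h1 : (∑ e ∈ G, (deg G e : ℝ)) = 3 * T := by
    have := hswap fun _ => 1
    simp only [mul_one] at this
    rw [← this, sum_congr rfl fun k hk => by rw [sum_const, card_sides hk], sum_const]
    simp only [nsmul_eq_mul, T]; push_cast; ring
  have h2 : ∑ k ∈ tri G, ∑ e ∈ sides k, (deg G e : ℝ) = ∑ e ∈ G, (deg G e : ℝ) ^ 2 :=
    (hswap _).trans (sum_congr rfl fun e _ => by ring)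
  have h3 : (3 * T) ^ 2 / m ≤ ∑ e ∈ G, (deg G e : ℝ) ^ 2 := by
    rcases G.eq_empty_or_nonempty with h0 | h0
    · simp [m, h0]
    rw [div_le_iff₀ (Nat.cast_pos.2 h0.card_pos), ← h1, mul_comm]
    exact sq_sum_le_card_mul_sum_sq
  have h4 := sum_le_sum fun k (hk : k ∈ tri G) => sum_deg_le hk
  rw [sum_add_distrib, sum_const, nsmul_eq_mul, h2] at h4
  calc _ ≤ T * (T + 2) - (3 * T) ^ 2 / m := by linarith
    _ = _ := by ring

/-- The universal leave lemma, with the exact coefficient. -/
theorem leave_lower_coef (B : ℕ) : ∀ (i : ℕ) (G : Finset (Finset α)), 3 * i + 6 ≤ G.card →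
    ∃ c : ℝ, 0 ≤ c ∧ c ≤ (((G.card : ℝ) - 3 * i) / G.card) ^ 3 ∧
      ((G.card : ℝ) - 3 * i) / 3 - c * ((tri G).card - (G.card : ℝ) / 3) ≤
        2 / 3 * leave G + pay B G := by
  suffices key : ∀ (i m : ℕ), 3 * i + 6 ≤ m → ∃ c : ℝ, 0 ≤ c ∧
      c ≤ (((m : ℝ) - 3 * i) / m) ^ 3 ∧ ∀ G : Finset (Finset α), G.card = m →
        ((m : ℝ) - 3 * i) / 3 - c * ((tri G).card - (m : ℝ) / 3) ≤ 2 / 3 * leave G + pay B G by
    intro i G hG
    obtain ⟨c, h0, h1, h2⟩ := key i G.card hG
    exact ⟨c, h0, h1, h2 G rfl⟩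
  intro i
  induction i with
  | zero =>
    intro m hm
    refine ⟨1, zero_le_one, ?_, fun G hG => ?_⟩
    · have : (0 : ℝ) < m := by exact_mod_cast (by omega : 0 < m)
      simp [div_self this.ne']
    · have := two_picks_le B G
      rw [hG] at this
      push_cast
      linarith
  | succ i ih =>
    intro m hm
    obtain ⟨c, hc0, hc1, hc⟩ := ih (m - 3) (by omega)
    have hm9 : (9 : ℝ) ≤ m := by exact_mod_cast (by omega : 9 ≤ m)
    have hcast : ((m - 3 : ℕ) : ℝ) = (m : ℝ) - 3 := by
      rw [Nat.cast_sub (by omega)]; norm_num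
    rw [hcast] at hc1 hc
    have hi : 3 * (i : ℝ) + 9 ≤ m := by exact_mod_cast (by omega : 3 * i + 9 ≤ m)
    have hd : 0 ≤ 1 - 9 / (m : ℝ) := by
      rw [sub_nonneg, div_le_one (by linarith)]; exact hm9
    have hd1 : 1 - 9 / (m : ℝ) ≤ (((m : ℝ) - 3) / m) ^ 3 := by
      rw [div_pow, le_div_iff₀ (by positivity), sub_mul, div_mul_eq_mul_div, one_mul,
        show (9 : ℝ) * (m : ℝ) ^ 3 / m = 9 * (m : ℝ) ^ 2 by field_simp]
      nlinarith
    refine ⟨c * (1 - 9 / (m : ℝ)), mul_nonneg hc0 hd, ?_, fun G hG => ?_⟩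
    · push_cast
      refine (mul_le_mul hc1 hd1 hd (pow_nonneg (div_nonneg (by linarith) (by linarith)) 3)).trans_eq
        ?_
      have : (m : ℝ) - 3 ≠ 0 := by linarith
      rw [← mul_pow]
      congr 1
      field_simp
      ring
    push_cast
    rcases (tri G).eq_empty_or_nonempty with h | h
    · have h2 := two_picks_le B G
      rw [h] at h2 ⊢
      rw [hG] at h2
      simp only [card_empty, Nat.cast_zero, zero_sub, mul_neg, sub_neg_eq_add] at h2 ⊢
      have hc2 : c ≤ 1 := hc1.trans (pow_le_one₀ (div_nonneg (by linarith) (by linarith))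
        (by rw [div_le_one (by linarith)]; linarith [Nat.cast_nonneg (α := ℝ) i]))
      have hd2 : 1 - 9 / (m : ℝ) ≤ 1 := by linarith [div_nonneg (show (0:ℝ) ≤ 9 by norm_num) (Nat.cast_nonneg m)]
      have := mul_le_mul_of_nonneg_right (mul_le_one₀ hc2 hd hd2)
        (show (0 : ℝ) ≤ (m : ℝ) / 3 by linarith)
      linarith
    have hT : 0 < ((tri G).card : ℝ) := Nat.cast_pos.2 h.card_pos
    have hk : ∀ k ∈ tri G,
        ((m : ℝ) - 3 * (i + 1)) / 3 + c * (((m : ℝ) - 3) / 3) - c * (tri (G \ sides k)).card ≤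
          2 / 3 * leave (G \ sides k) + pay B (G \ sides k) + (if k ∈ iso G then (1 : ℝ) else 0) :=
      fun k hk => by
        have hcard := card_sdiff_sides hk
        have := hc (G \ sides k) (by omega)
        have : (0 : ℝ) ≤ if k ∈ iso G then (1 : ℝ) else 0 := by positivity
        linarith
    have hs := sum_le_sum hk
    have hp := sum_pay_le (B := B) h
    have hd3 := mul_le_mul_of_nonneg_left (sum_tri_le (G := G)) hc0
    rw [hG] at hd3
    simp only [sum_add_distrib, sum_sub_distrib, sum_const, nsmul_eq_mul, ← mul_sum,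
      ← leave_mul h] at hs hp
    refine le_of_mul_le_mul_left ?_ hT
    have e : c * (1 - 9 / (m : ℝ)) * (((tri G).card : ℝ) - (m : ℝ) / 3) =
        c * ((tri G).card * (1 - 9 / (m : ℝ)) + 2) - c * (((m : ℝ) - 3) / 3) := by
      field_simp
      ring
    rw [e]
    linarith

/-- The universal leave lemma. -/
theorem leave_lower (B i : ℕ) (G : Finset (Finset α)) (h : 3 * i + 6 ≤ G.card) :
    ((G.card : ℝ) - 3 * i) / 3 ≤ (2 * B + 2 / 3) * leave G +
      (((G.card : ℝ) - 3 * i) / G.card) ^ 3 * (tri G).card + (iso G).card +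
      3 * (heavy B G).card := by
  obtain ⟨c, hc0, hc1, hc⟩ := leave_lower_coef B i G h
  have h1 := mul_le_mul_of_nonneg_right hc1 (Nat.cast_nonneg (α := ℝ) (tri G).card)
  have h2 : 0 ≤ c * ((G.card : ℝ) / 3) := mul_nonneg hc0 (by positivity)
  have h3 : (0 : ℝ) ≤ 2 * B * (zero G).card := by positivity
  simp only [pay] at hc
  linarith

end Vale.Agent.P046.Lower
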