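import Vale.Agent.P046.Lower.Stage

/-! P046 lower bound: a subsolution carried from the complete graph down to `Y ~ (log n)^2`. -/

open Finset

namespace Vale.Agent.P046.Lower

variable {α : Type*} [DecidableEq α] [Fintype α]

/-- The one-step bound for the shape. -/
def StepBound (α : Type*) [DecidableEq α] [Fintype α] : Prop :=
  ∀ (G : Finset (Finset α)) (Y : ℝ), 400 ≤ Y → (G.card : ℝ) * Y / 2 ≤ 3 * (tri G).card →
    avg G (fun H => shape H (Y / (1 + 2 * Y / (tri G).card))) ≤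
      shape G Y * (1 + Y / (tri G).card) + 6300 * G.card / (tri G).card

/-- The coefficient of `m / √Y`. -/
noncomputable def coefA (S L Y : ℝ) : ℝ := 1 / 2 + √S / (4 * √Y) - Real.log (Y / S) / (8 * L)

/-- The coefficient of `√Y` times the shape. -/
noncomputable def coefB (S L Y : ℝ) : ℝ := (2 - √S / √Y) / (100800 * L)

/-- The subsolution. -/
noncomputable def sub (S L : ℝ) (G : Finset (Finset α)) (Y : ℝ) : ℝ :=
  coefA S L Y * G.card / √Y - coefB S L Y * √Y * shape G Y - 400000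

theorem le_phi (z : ℝ) : -z / 5 - 1 / 100 ≤ phi z := by
  rcases le_or_gt 0 z with h | h
  · linarith [phi_nonneg z]
  rw [phi, if_neg (not_le.2 h)]
  split_ifs
  · nlinarith [sq_nonneg (z + 1 / 10)]
  · exact le_rfl

theorem le_eps_add_phi {z ε : ℝ} (hε : 0 < ε) (hε1 : ε ≤ 1) : z ≤ ε + 2 / ε * phi z := by
  have h0 : 0 ≤ 2 / ε * phi z := mul_nonneg (div_nonneg (by norm_num) hε.le) (phi_nonneg z)
  rcases le_or_gt z ε with h | h
  · linarith
  rw [phi, if_pos (by linarith), div_mul_div_comm, ← sub_le_iff_le_add',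
    le_div_iff₀ (mul_pos hε (by linarith))]
  nlinarith [mul_le_mul_of_nonneg_left hε1 (sq_nonneg z), mul_le_mul_of_nonneg_left h.le (show (0 : ℝ) ≤ z by linarith), sq_nonneg ε]

theorem three_tri_eq (G : Finset (Finset α)) {Y : ℝ} (hY : Y ≠ 0) :
    3 * ((tri G).card : ℝ) - G.card * Y = Y * ∑ e ∈ G, ((deg G e : ℝ) / Y - 1) := by
  have h : (3 * (tri G).card : ℝ) = ∑ e ∈ G, (deg G e : ℝ) := by exact_mod_cast (sum_deg G).symm
  rw [sum_sub_distrib, mul_sub, mul_sum, sum_const, nsmul_one, h]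
  simp only [mul_div_cancel₀ _ hY]
  ring

theorem tri_excess_le (G : Finset (Finset α)) {Y ε : ℝ} (hY : 0 < Y) (hε : 0 < ε) (hε1 : ε ≤ 1) :
    3 * ((tri G).card : ℝ) - G.card * Y ≤ Y * (ε * G.card + 2 / ε * shape G Y) := by
  rw [three_tri_eq G hY.ne']
  refine mul_le_mul_of_nonneg_left ?_ hY.le
  refine (sum_le_sum fun e _ => le_eps_add_phi hε hε1).trans_eq ?_
  rw [sum_add_distrib, sum_const, nsmul_eq_mul, ← mul_sum, shape]
  ring

theorem shape_of_few (G : Finset (Finset α)) {Y : ℝ} (hY : 0 < Y)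
    (h : 3 * ((tri G).card : ℝ) < G.card * Y / 2) : 9 / 100 * G.card ≤ shape G Y := by
  have h1 := three_tri_eq G hY.ne'
  have h2 : ∑ e ∈ G, ((deg G e : ℝ) / Y - 1) ≤ -(G.card : ℝ) / 2 := by
    rw [← mul_le_mul_iff_right₀ hY, ← h1]; linarith
  have h3 : ∑ e ∈ G, (-((deg G e : ℝ) / Y - 1) / 5 - 1 / 100) ≤ shape G Y :=
    sum_le_sum fun e _ => le_phi _
  rw [sum_sub_distrib, sum_const, nsmul_eq_mul, ← sum_div, sum_neg_distrib] at h3
  linarith

theorem sqrt_one_add_le {s : ℝ} (hs : 0 ≤ s) : √(1 + s) ≤ 1 + s / 2 := by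
  rw [Real.sqrt_le_iff]; exact ⟨by linarith, by nlinarith [sq_nonneg s]⟩

theorem le_sqrt_one_add {s : ℝ} (hs : 0 ≤ s) (hs1 : s ≤ 1) :
    1 + s / 2 - s ^ 2 / 8 ≤ √(1 + s) :=
  Real.le_sqrt_of_sq_le (by nlinarith [mul_nonneg (pow_nonneg hs 3) (show 0 ≤ 8 - s by linarith)])

/-- The change of the coefficients over one pick. -/
theorem coef_step {S L Y s : ℝ} (hS : 0 < S) (hL : 0 < L) (hY : 0 < Y) (hs : 0 ≤ s) (hs1 : s ≤ 1) :
    coefA S L Y + √S / √Y * (s / 12) + s / (16 * L) ≤ coefA S L (Y / (1 + s)) ∧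
      coefB S L (Y / (1 + s)) + √S / √Y * (s / 3) / (100800 * L) ≤ coefB S L Y := by
  have h1 : 0 < 1 + s := by linarith
  have hY0 : 0 < √Y := Real.sqrt_pos.2 hY
  have hq0 : 0 < √(1 + s) := Real.sqrt_pos.2 h1
  have e : √S / √(Y / (1 + s)) = √S / √Y * √(1 + s) := by
    rw [Real.sqrt_div hY.le]; field_simp
  have hq : 1 + s / 3 ≤ √(1 + s) := by nlinarith [le_sqrt_one_add hs hs1]
  have hr : 0 ≤ √S / √Y := by positivity
  have hlog : Real.log (Y / (1 + s) / S) = Real.log (Y / S) - Real.log (1 + s) := by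
    rw [div_right_comm, Real.log_div (div_pos hY hS).ne' h1.ne']
  have hlog' : s / 2 ≤ Real.log (1 + s) := by
    have h := Real.one_sub_inv_le_log_of_pos h1
    refine le_trans ?_ h
    rw [← one_div, le_sub_iff_add_le, ← le_sub_iff_add_le', div_le_iff₀ h1]
    nlinarith
  constructor
  · rw [coefA, coefA, hlog, show √S / (4 * √(Y / (1 + s))) = √S / √(Y / (1 + s)) / 4 by ring, e,
      show √S / (4 * √Y) = √S / √Y / 4 by ring, sub_div]
    have h2 : s / (16 * L) ≤ Real.log (1 + s) / (8 * L) := by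
      rw [show s / (16 * L) = s / 2 / (8 * L) by ring]; gcongr
    have h3 := mul_le_mul_of_nonneg_left hq hr
    linarith
  · rw [coefB, coefB, ← add_div, e]
    gcongr
    have h3 := mul_le_mul_of_nonneg_left hq hr
    linarith

theorem coefA_mem {S L Y : ℝ} (hS : 0 < S) (hL : 1 ≤ L) (hY : S / 2 ≤ Y)
    (hY' : Real.log (Y / S) ≤ L) : 3 / 8 ≤ coefA S L Y ∧ coefA S L Y ≤ 1 := by
  have hY0 : 0 < Y := by linarith
  have hr : 0 ≤ √S / (4 * √Y) := by positivity
  have hr1 : √S / √Y ≤ 3 / 2 := by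
    rw [← Real.sqrt_div hS.le, Real.sqrt_le_iff]
    exact ⟨by norm_num, by rw [div_le_iff₀ hY0]; linarith⟩
  have hlog : -1 ≤ Real.log (Y / S) := by
    have h1 : Real.log (1 / 2) ≤ Real.log (Y / S) :=
      Real.log_le_log (by norm_num) (by rw [le_div_iff₀ hS]; linarith)
    rw [one_div, Real.log_inv] at h1
    linarith [Real.log_two_lt_d9]
  have hu : Real.log (Y / S) / (8 * L) ≤ 1 / 8 := by
    rw [div_le_iff₀ (by linarith)]; linarith
  have hl : -(1 / 8) ≤ Real.log (Y / S) / (8 * L) := by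
    rw [le_div_iff₀ (by linarith)]; linarith
  refine ⟨by unfold coefA; linarith, ?_⟩
  unfold coefA
  rw [show √S / (4 * √Y) = √S / √Y / 4 by ring]
  linarith

theorem coefB_mem {S L Y : ℝ} (hS : 0 < S) (hL : 0 < L) (hY : S / 2 ≤ Y) :
    1 / (2 * (100800 * L)) ≤ coefB S L Y ∧ coefB S L Y ≤ 2 / (100800 * L) := by
  have hY0 : 0 < Y := by linarith
  have hr : 0 ≤ √S / √Y := by positivity
  have hr1 : √S / √Y ≤ 3 / 2 := by
    rw [← Real.sqrt_div hS.le, Real.sqrt_le_iff]
    exact ⟨by norm_num, by rw [div_le_iff₀ hY0]; linarith⟩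
  unfold coefB
  constructor
  · rw [show 1 / (2 * (100800 * L)) = 1 / 2 / (100800 * L) by ring]; gcongr; linarith
  · gcongr; linarith

theorem step_main {m d r P q : ℝ} (hd : 0 < d) (hdm : d * m ≤ 6) (hm : 3 ≤ m)
    (hex : 3 - m * d ≤ d * (r / 10 * m + 20 / r * P)) (hql : 1 + d - d ^ 2 / 2 ≤ q) :
    m * (1 - d * (r / 10)) - 20 / r * P * d - 6 * d ≤ (m - 3) * q := by
  have h1 := mul_le_mul_of_nonneg_left hql (show 0 ≤ m - 3 by linarith)
  have h2 := mul_le_mul_of_nonneg_right hdm hd.le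
  have h3 : 0 ≤ d ^ 2 := sq_nonneg d
  linarith

theorem step_shape {m d P P' T q : ℝ} (hd : 0 < d) (hd1 : 2 * d ≤ 1) (hP : 0 ≤ P) (hm : 0 ≤ m)
    (hT : 0 < T) (hql : 1 + d - d ^ 2 / 2 ≤ q) (hP' : P' ≤ P * (1 + d) + 6300 * m / T) :
    P' / q ≤ P * (1 + d * d) + 6300 * m / T := by
  have hq1 : 1 ≤ q := by nlinarith
  rw [div_le_iff₀ (by linarith)]
  refine hP'.trans ?_
  have h3 : 1 + d ≤ (1 + d * d) * q := by
    refine le_trans ?_ (mul_le_mul_of_nonneg_left hql (show 0 ≤ 1 + d * d by positivity))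
    nlinarith [pow_nonneg hd.le 3, sq_nonneg d]
  have h4 : 6300 * m / T ≤ 6300 * m / T * q := le_mul_of_one_le_right (by positivity) hq1
  have h5 := mul_le_mul_of_nonneg_left h3 hP
  linarith

theorem step_coefA {Y T m r d a a' b' L : ℝ} (hY : 0 < Y) (hT : 0 < T) (hd : d = Y / T)
    (hL : 0 < L) (hm : 0 < m) (hr : 0 < r)
    (ha : a + r * (2 * d / 12) + 2 * d / (16 * L) ≤ a') (ha1 : a' ≤ 1) (hb0 : 0 ≤ b')
    (hb1 : b' ≤ 2 / (100800 * L)) (hmr : 6 ≤ m * (r / 20)) :
    a * m + d * m * (r / 60) ≤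
      a' * (m * (1 - d * (r / 10))) - a' * (6 * d) - Y * b' * (6300 * m / T) := by
  have hd0 : 0 < d := hd ▸ div_pos hY hT
  have h1 : a * m + r * d * m / 6 + d * m / (8 * L) ≤ a' * m := by
    refine le_trans (le_of_eq ?_) (mul_le_mul_of_nonneg_right ha hm.le)
    ring
  have h2 : a' * (m * (d * (r / 10))) ≤ m * (d * (r / 10)) :=
    mul_le_of_le_one_left (by positivity) ha1
  have h3 : a' * (6 * d) ≤ 6 * d := mul_le_of_le_one_left (by positivity) ha1
  have h4 : Y * b' * (6300 * m / T) ≤ d * m / (8 * L) := by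
    calc Y * b' * (6300 * m / T) = b' * (6300 * m * d) := by rw [hd]; ring
      _ ≤ 2 / (100800 * L) * (6300 * m * d) := mul_le_mul_of_nonneg_right hb1 (by positivity)
      _ = _ := by field_simp; ring
  have h5 := mul_le_mul_of_nonneg_left hmr hd0.le
  linarith

theorem step_coefB {Y P r d a' b b' L : ℝ} (hY : 0 < Y) (hd : 0 < d) (hL : 0 < L) (hr : 0 < r)
    (hP : 0 ≤ P) (ha1 : a' ≤ 1) (hb : b' + r * (2 * d / 3) / (100800 * L) ≤ b)
    (hb1 : b' ≤ 2 / (100800 * L)) (hdr : 6 * d ≤ r) (hrL : 100800 * L * 100 ≤ r ^ 2 * Y) :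
    a' * (20 / r * P * d) + Y * b' * (P * (1 + d * d)) ≤ Y * b * P := by
  have h2 : Y * b' * (d * d) ≤ Y * (r * (d / 3) / (100800 * L)) := by
    calc Y * b' * (d * d) ≤ Y * (2 / (100800 * L)) * (d * d) := by gcongr
      _ = Y * (2 * d * d / (100800 * L)) := by ring
      _ ≤ _ := mul_le_mul_of_nonneg_left
        (div_le_div_of_nonneg_right (by nlinarith) (by positivity)) hY.le
  have h3 : 20 / r * d ≤ Y * (r * (d / 3) / (100800 * L)) := by
    rw [div_mul_eq_mul_div, ← mul_div_assoc, div_le_div_iff₀ hr (by positivity)]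
    nlinarith [mul_le_mul_of_nonneg_left hrL hd.le]
  have h4 : a' * (20 / r * P * d) ≤ 20 / r * P * d := mul_le_of_le_one_left (by positivity) ha1
  have h5 := mul_le_mul_of_nonneg_right (add_le_add h2 h3) hP
  have h6 := mul_le_mul_of_nonneg_left (mul_le_mul_of_nonneg_right hb hP) hY.le
  have e : r * (2 * d / 3) / (100800 * L) = 2 * (r * (d / 3) / (100800 * L)) := by ring
  rw [e] at h6
  linarith

/-- The scalar inequality of one step. -/
theorem step_ineq {Y m T P P' r a a' b b' L : ℝ} (hY : 0 < Y) (hY1 : 1 ≤ Y) (hL : 0 < L)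
    (hm : 400000 * √Y ≤ m) (hT : m * Y / 2 ≤ 3 * T) (hr : 0 < r) (hP : 0 ≤ P)
    (ha : a + r * (2 * Y / T / 12) + 2 * Y / T / (16 * L) ≤ a') (ha1 : a' ≤ 1) (ha0 : 0 ≤ a')
    (hb : b' + r * (2 * Y / T / 3) / (100800 * L) ≤ b) (hb0 : 0 ≤ b')
    (hb1 : b' ≤ 2 / (100800 * L)) (hrL : 100800 * L * 100 ≤ r ^ 2 * Y) (hrY : 1 ≤ r * √Y)
    (hex : 3 * T - m * Y ≤ Y * (r / 10 * m + 20 / r * P))
    (hP' : P' ≤ P * (1 + Y / T) + 6300 * m / T) :
    a * m / √Y - b * √Y * P ≤
      a' * (m - 3) / √(Y / (1 + 2 * Y / T)) - b' * √(Y / (1 + 2 * Y / T)) * P' := by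
  have hy : 0 < √Y := Real.sqrt_pos.2 hY
  have hm0 : 0 < m := lt_of_lt_of_le (by positivity) hm
  have hT0 : 0 < T := by
    have := mul_pos hm0 hY
    linarith
  have hmr : 400000 ≤ m * r := by
    calc (400000 : ℝ) ≤ 400000 * (r * √Y) := le_mul_of_one_le_right (by norm_num) hrY
      _ = 400000 * √Y * r := by ring
      _ ≤ _ := mul_le_mul_of_nonneg_right hm hr.le
  obtain ⟨d, hd⟩ : ∃ d, d = Y / T := ⟨_, rfl⟩
  have hd0 : 0 < d := hd ▸ div_pos hY hT0
  have hdm : d * m ≤ 6 := by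
    rw [hd, div_mul_eq_mul_div, div_le_iff₀ hT0]; linarith
  have hs : 2 * Y / T = 2 * d := by rw [hd]; ring
  rw [hs] at ha hb ⊢
  have hdr : 6 * d ≤ r := by
    have h1 := mul_le_mul_of_nonneg_left hmr (show 0 ≤ 6 * d by linarith)
    have h2 := mul_le_mul_of_nonneg_right hdm (show 0 ≤ 6 * r by linarith)
    linarith
  have hm4 : 400000 ≤ m := by
    have := Real.one_le_sqrt.2 hY1
    linarith
  have hd1 : 2 * d ≤ 1 := by
    have h1 := mul_le_mul_of_nonneg_left hm4 hd0.le
    linarith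
  rw [show √(Y / (1 + 2 * d)) = √Y / √(1 + 2 * d) from Real.sqrt_div hY.le _]
  have hql : 1 + d - d ^ 2 / 2 ≤ √(1 + 2 * d) := by
    refine le_trans (le_of_eq ?_) (le_sqrt_one_add (show 0 ≤ 2 * d by linarith) hd1)
    ring
  have hq0 : 0 < √(1 + 2 * d) := Real.sqrt_pos.2 (by linarith)
  generalize hq : √(1 + 2 * d) = q at hql hq0 ⊢
  have hm3 : 3 ≤ m := by linarith
  have hex' : 3 - m * d ≤ d * (r / 10 * m + 20 / r * P) := by
    rw [hd, ← sub_nonneg]
    have : 0 ≤ (Y * (r / 10 * m + 20 / r * P) - (3 * T - m * Y)) / T :=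
      div_nonneg (by linarith) hT0.le
    refine this.trans_eq ?_
    field_simp
    try ring
  have h7 := mul_le_mul_of_nonneg_left (step_main hd0 hdm hm3 hex' hql) ha0
  have h8 := mul_le_mul_of_nonneg_left
    (step_shape hd0 hd1 hP hm0.le hT0 hql (hd ▸ hP')) (mul_nonneg hY.le hb0)
  have hA := step_coefA hY hT0 hd hL hm0 hr ha ha1 hb0 hb1 (by linarith)
  have hB := step_coefB hY hd0 hL hr hP ha1 hb hb1 hdr hrL
  have h9 : 0 ≤ d * m * (r / 60) := by positivity
  have key : a * m - Y * b * P ≤ a' * ((m - 3) * q) - Y * b' * (P' / q) := by linarith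
  have e1 : a * m / √Y - b * √Y * P = (a * m - Y * b * P) / √Y := by
    field_simp; rw [Real.sq_sqrt hY.le]; ring
  have e2 : a' * (m - 3) / (√Y / q) - b' * (√Y / q) * P' =
      (a' * ((m - 3) * q) - Y * b' * (P' / q)) / √Y := by
    field_simp; rw [Real.sq_sqrt hY.le]; ring
  rw [e1, e2]
  gcongr

/-- The subsolution lies below the leave. -/
theorem sub_le_leave (hstep : StepBound α) {S L : ℝ} (hL : 1 ≤ L)
    (hS : S = (4 * 10 ^ 22 * L) ^ 2) :
    ∀ (G : Finset (Finset α)) (Y : ℝ), S / 2 ≤ Y → Real.log (Y / S) ≤ L →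
      sub S L G Y ≤ 1500 * S ^ 2 * leave G := by
  have hL0 : 0 < L := by linarith
  have hS0 : 0 < S := hS ▸ by positivity
  have hsS : √S = 4 * 10 ^ 22 * L := by rw [hS, Real.sqrt_sq (by positivity)]
  have hSbig : 10 ^ 40 ≤ S := by
    rw [hS]; nlinarith [mul_le_mul hL hL zero_le_one (by linarith)]
  intro G
  induction hn : G.card using Nat.strong_induction_on generalizing G with
  | _ n ih =>
    subst hn
    intro Y hY hlog
    have hY0 : 0 < Y := by linarith
    have hy : 0 < √Y := Real.sqrt_pos.2 hY0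
    obtain ⟨ha, ha'⟩ := coefA_mem hS0 hL hY hlog
    obtain ⟨hb, hb'⟩ := coefB_mem hS0 hL0 hY
    have hP := shape_nonneg G Y
    have hF := leave_nonneg G
    have hB : 10 ^ 17 ≤ coefB S L Y * √Y := by
      have h1 : 2 / 3 * √S ≤ √Y := by
        rw [show (2 : ℝ) / 3 = √((2 / 3) ^ 2) by rw [Real.sqrt_sq]; norm_num,
          ← Real.sqrt_mul (by positivity)]
        exact Real.sqrt_le_sqrt (by linarith)
      refine le_trans ?_ (mul_le_mul hb h1 (by positivity) (le_trans (by positivity) hb))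
      rw [hsS, div_mul_eq_mul_div, le_div_iff₀ (by positivity)]
      linarith
    rcases le_or_gt Y S with hYS | hYS
    · -- base
      have h1 := stage_lower G (Y := Y) (by linarith)
      have h2 : sub S L G Y ≤ (G.card : ℝ) / √Y - 10 ^ 17 * shape G Y - 400000 := by
        have := mul_le_mul_of_nonneg_right hB hP
        have h3 : coefA S L Y * G.card / √Y ≤ (G.card : ℝ) / √Y := by
          gcongr; exact mul_le_of_le_one_left (Nat.cast_nonneg _) ha'
        unfold sub; linarith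
      refine h2.trans (h1.trans ?_)
      gcongr
    rcases le_or_gt ((G.card : ℝ)) (400000 * √Y) with hm | hm
    · have h1 : coefA S L Y * G.card / √Y ≤ 400000 := by
        rw [div_le_iff₀ hy]
        exact le_trans (mul_le_of_le_one_left (Nat.cast_nonneg _) ha') hm
      have h2 := mul_nonneg (show 0 ≤ coefB S L Y * √Y by linarith) hP
      have h3 : 0 ≤ 1500 * S ^ 2 * leave G := by positivity
      unfold sub; linarith
    rcases lt_or_ge (3 * ((tri G).card : ℝ)) (G.card * Y / 2) with hT | hT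
    · have h1 := shape_of_few G hY0 hT
      have h2 := mul_le_mul hB h1 (by positivity) (by linarith)
      have h3 : coefA S L Y * G.card / √Y ≤ G.card := by
        rw [div_le_iff₀ hy]
        exact mul_le_mul_of_nonneg_right ha' (Nat.cast_nonneg _) |>.trans (by
          rw [one_mul]; exact le_mul_of_one_le_right (Nat.cast_nonneg _)
            (Real.one_le_sqrt.2 (by linarith)))
      have h4 : 0 ≤ 1500 * S ^ 2 * leave G := by positivity
      unfold sub; linarith
    have hne : (tri G).Nonempty := by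
      rw [← card_pos, ← Nat.cast_pos (α := ℝ)]; nlinarith
    have hT0 : (0 : ℝ) < (tri G).card := Nat.cast_pos.2 hne.card_pos
    set s := 2 * Y / ((tri G).card : ℝ) with hs
    have hs0 : 0 ≤ s := by positivity
    have hs1 : s ≤ 1 := by
      rw [hs, div_le_one hT0]
      have : 1 ≤ √Y := Real.one_le_sqrt.2 (by linarith)
      nlinarith [mul_le_mul_of_nonneg_right (show (12 : ℝ) ≤ G.card by nlinarith) hY0.le]
    have hY' : S / 2 ≤ Y / (1 + s) := by
      rw [le_div_iff₀ (by linarith)]; nlinarith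
    have hlog' : Real.log (Y / (1 + s) / S) ≤ L :=
      le_trans (Real.log_le_log (by positivity) (by gcongr; exact div_le_self hY0.le (by linarith)))
        hlog
    obtain ⟨hcA, hcB⟩ := coef_step hS0 hL0 hY0 hs0 hs1
    obtain ⟨ha0, ha1⟩ := coefA_mem hS0 hL hY' hlog'
    obtain ⟨hb0, hb1⟩ := coefB_mem hS0 hL0 hY'
    have hr : √S / √Y ≤ 1 := by
      rw [div_le_one hy]; exact Real.sqrt_le_sqrt hYS.le
    have hP' := hstep G Y (by linarith) hT
    rw [← hs] at hP'
    have hex := tri_excess_le G hY0 (ε := √S / √Y / 10) (by positivity) (by linarith)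
    have key := step_ineq (Y := Y) (m := (G.card : ℝ)) (r := √S / √Y) hY0 (by linarith) hL0 hm.le hT
      (by positivity) hP hcA ha1 (by linarith) hcB
      (le_trans (by positivity) hb0) hb1
      (by rw [div_pow, Real.sq_sqrt hS0.le, Real.sq_sqrt hY0.le, div_mul_cancel₀ _ hY0.ne', hS]
          nlinarith)
      (by rw [div_mul_cancel₀ _ hy.ne', hsS]; nlinarith)
      (hex.trans_eq (by field_simp; ring)) hP'
    rw [← hs] at key
    set Y' := Y / (1 + s)
    have hsub : ∀ t ∈ tri G, coefA S L Y' * ((G.card : ℝ) - 3) / √Y' - 400000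
        + (-(coefB S L Y' * √Y')) * shape (G \ sides t) Y' ≤ 1500 * S ^ 2 * leave (G \ sides t) :=
      fun t ht => by
      have := ih _ (card_removed_lt ht) (G \ sides t) rfl Y' hY' hlog'
      have hc : ((G \ sides t).card : ℝ) = (G.card : ℝ) - 3 := by
        have := congrArg (fun n : ℕ => (n : ℝ)) (card_sdiff_sides ht)
        push_cast at this; linarith
      rw [sub, hc] at this
      linarith
    have h1 := div_le_div_of_nonneg_right (sum_le_sum hsub) hT0.le
    rw [← mul_sum, sum_add_distrib, sum_const, nsmul_eq_mul, add_div,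
      mul_div_cancel_left₀ _ hT0.ne', ← mul_sum, mul_div_assoc (-(coefB S L Y' * √Y')),
      mul_div_assoc (1500 * S ^ 2)] at h1
    have e1 : (∑ t ∈ tri G, leave (G \ sides t)) / (tri G).card = leave G := by
      rw [← avg_leave G, avg, if_pos hne]
    have e2 : (∑ t ∈ tri G, shape (G \ sides t) Y') / (tri G).card =
        avg G fun H => shape H Y' := by rw [avg, if_pos hne]
    rw [e1, e2] at h1
    unfold sub
    linarith

theorem deg_complete {n : ℕ} {e : Finset (Fin n)} (he : e ∈ complete n) :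
    deg (complete n) e = n - 2 := by
  rw [complete, mem_powersetCard] at he
  have hx : ∀ x ∈ univ \ e, x ∉ e := fun x hx => (mem_sdiff.1 hx).2
  have : triAt (complete n) e = (univ \ e).image fun x => insert x e := by
    ext t
    simp only [triAt, mem_filter, mem_tri, mem_sides, mem_image, complete]
    constructor
    · rintro ⟨⟨ht, -⟩, het, -⟩
      have h1 : (t \ e).card = 1 := by rw [card_sdiff_of_subset het, ht, he.2]
      obtain ⟨x, hx⟩ := card_eq_one.1 h1
      have hxt : x ∈ t \ e := by rw [hx]; exact mem_singleton_self x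
      refine ⟨x, mem_sdiff.2 ⟨mem_univ _, (mem_sdiff.1 hxt).2⟩, ?_⟩
      rw [← sdiff_union_of_subset het, hx, insert_eq]
    · rintro ⟨x, hx', rfl⟩
      refine ⟨⟨by rw [card_insert_of_notMem (hx x hx'), he.2], fun f hf => ?_⟩,
        subset_insert _ _, he.2⟩
      exact mem_powersetCard.2 ⟨subset_univ _, (mem_sides.1 hf).2⟩
  rw [deg, this, card_image_of_injOn, card_sdiff_of_subset (subset_univ _), card_univ,
    Fintype.card_fin, he.2]
  intro x hx' y hy' hxy
  have h : x ∈ insert y e := by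
    show x ∈ _
    rw [← show insert x e = insert y e from hxy]; exact mem_insert_self x e
  rcases mem_insert.1 h with h | h
  · exact h
  · exact absurd h (hx x (mem_coe.1 hx'))

/-- The expected leave is at least `n^(3/2)` up to a power of the logarithm. -/
theorem leave_complete_lower (hstep : ∀ n, StepBound (Fin n)) :
    ∃ c : ℝ, 0 < c ∧ ∀ᶠ n : ℕ in Filter.atTop,
      c * ((n : ℝ) * √n) / Real.log n ^ 4 ≤ leave (complete n) := by
  refine ⟨1 / (24000 * (16 * (4 * 10 ^ 22) ^ 4)), by positivity, ?_⟩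
  have h1 : ∀ᶠ n : ℕ in Filter.atTop,
      (4 * 10 ^ 22 * (1 + Real.log n)) ^ 2 ≤ (n : ℝ) ∧ 1 ≤ Real.log n := by
    have h := ((Real.isLittleO_pow_log_id_atTop (n := 2)).bound
      (show (0 : ℝ) < 1 / (4 * (4 * 10 ^ 22) ^ 2) by positivity)).and
      (Real.tendsto_log_atTop.eventually_ge_atTop 1)
    filter_upwards [tendsto_natCast_atTop_atTop.eventually h] with n hn
    obtain ⟨hn, hlog⟩ := hn
    refine ⟨?_, hlog⟩
    rw [Real.norm_eq_abs, Real.norm_eq_abs, abs_of_nonneg (sq_nonneg _), id, Nat.abs_cast] at hn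
    rw [mul_pow]
    have h2 : (1 + Real.log n) ^ 2 ≤ 4 * Real.log n ^ 2 := by nlinarith
    refine le_trans (mul_le_mul_of_nonneg_left h2 (by positivity)) ?_
    refine le_trans (mul_le_mul_of_nonneg_left (mul_le_mul_of_nonneg_left hn (by norm_num))
      (by positivity)) (le_of_eq ?_)
    field_simp
  filter_upwards [h1, Filter.eventually_ge_atTop (10 ^ 14)] with n hn hn6
  obtain ⟨hn, hlog⟩ := hn
  set L := 1 + Real.log n with hL
  set S := (4 * 10 ^ 22 * L) ^ 2 with hS
  have hn' : (10 ^ 14 : ℝ) ≤ n := by exact_mod_cast hn6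
  have hS0 : 0 < S := by positivity
  have hS1 : 1 ≤ S := by rw [hS]; exact one_le_pow₀ (by nlinarith)
  have hY0 : (0 : ℝ) < (n : ℝ) - 2 := by linarith
  have hsh : shape (complete n) ((n : ℝ) - 2) = 0 := sum_eq_zero fun e he => by
    rw [deg_complete he, Nat.cast_sub (by omega), Nat.cast_ofNat, div_self hY0.ne', sub_self,
      phi_zero]
  have hlogY : Real.log (((n : ℝ) - 2) / S) ≤ L := by
    refine le_trans (Real.log_le_log (by positivity) ?_) (by rw [hL]; linarith : Real.log n ≤ L)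
    rw [div_le_iff₀ hS0]
    nlinarith
  have key := sub_le_leave (hstep n) (S := S) (L := L) (by linarith) rfl (complete n)
    ((n : ℝ) - 2) (by linarith) hlogY
  obtain ⟨ha, -⟩ := coefA_mem hS0 (show 1 ≤ L by linarith) (show S / 2 ≤ (n : ℝ) - 2 by linarith)
    hlogY
  have hcard : ((complete n).card : ℝ) = n * ((n : ℝ) - 1) / 2 := by
    rw [complete, card_powersetCard, card_univ, Fintype.card_fin, Nat.cast_choose_two]
  unfold sub at key
  rw [hsh, mul_zero, sub_zero, hcard] at key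
  have hsn : 0 < √(n : ℝ) := Real.sqrt_pos.2 (by linarith)
  have hmain : (n : ℝ) * √n / 16 ≤ coefA S L ((n : ℝ) - 2) * (n * ((n : ℝ) - 1) / 2) /
      √((n : ℝ) - 2) - 400000 := by
    have h3 : 3 / 8 * (n * ((n : ℝ) - 1) / 2) / √(n : ℝ) ≤
        coefA S L ((n : ℝ) - 2) * (n * ((n : ℝ) - 1) / 2) / √((n : ℝ) - 2) := by
      have : (0 : ℝ) ≤ (n : ℝ) * ((n : ℝ) - 1) / 2 := by nlinarith
      exact div_le_div₀ (mul_nonneg (by linarith) this) (mul_le_mul_of_nonneg_right ha this)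
        (Real.sqrt_pos.2 hY0) (Real.sqrt_le_sqrt (by linarith))
    have h4 : (n : ℝ) * √n / 8 ≤ 3 / 8 * (n * ((n : ℝ) - 1) / 2) / √(n : ℝ) := by
      rw [le_div_iff₀ hsn, div_mul_eq_mul_div, mul_assoc, Real.mul_self_sqrt (by linarith)]
      nlinarith
    have h5 : 400000 ≤ (n : ℝ) * √n / 16 := by
      have : 1 ≤ √(n : ℝ) := Real.one_le_sqrt.2 (by linarith)
      nlinarith
    linarith
  have hfin : 1500 * S ^ 2 ≤ 1500 * (16 * (4 * 10 ^ 22) ^ 4) * Real.log n ^ 4 := by
    rw [hS, ← pow_mul, mul_pow, mul_assoc (1500 : ℝ)]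
    refine mul_le_mul_of_nonneg_left ?_ (by norm_num)
    calc (4 * 10 ^ 22 : ℝ) ^ (2 * 2) * L ^ (2 * 2) ≤ (4 * 10 ^ 22) ^ 4 * (2 * Real.log n) ^ 4 := by
          gcongr; linarith
      _ = _ := by ring
  rw [div_le_iff₀ (by positivity), div_mul_eq_mul_div, one_mul, div_le_iff₀ (by positivity)]
  have := mul_le_mul_of_nonneg_right hfin (leave_nonneg (complete n))
  linarith

end Vale.Agent.P046.Lower
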