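import Vale.Agent.P046.Lower.Decay
import Vale.Agent.P046.Lower.Leave
import Vale.Agent.P046.Shape

/-! P046 lower bound: the leave of one graph whose codegrees are mostly near `Y`. -/

open Finset

namespace Vale.Agent.P046.Lower

variable {α : Type*} [DecidableEq α] [Fintype α]

/-- The sum of the shape over the edges, at scale `Y`. -/
noncomputable def shape (G : Finset (Finset α)) (Y : ℝ) : ℝ :=
  ∑ e ∈ G, phi (deg G e / Y - 1)

theorem shape_nonneg (G : Finset (Finset α)) (Y : ℝ) : 0 ≤ shape G Y :=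
  sum_nonneg fun _ _ => phi_nonneg _

theorem le_phi_of_ge {d Y : ℝ} (hY : 0 < Y) (h : 2 * Y ≤ d) : d ≤ 4 * Y * phi (d / Y - 1) := by
  have hz : 2 ≤ d / Y := by rw [le_div_iff₀ hY]; linarith
  have hd : d / Y * Y = d := div_mul_cancel₀ d hY.ne'
  set z := d / Y - 1 with hzd
  rw [phi, if_pos (by linarith), mul_div_assoc', le_div_iff₀ (by linarith)]
  nlinarith [mul_nonneg hY.le (mul_nonneg (show 0 ≤ z - 1 by linarith) (show 0 ≤ 3 * z + 1 by linarith))]

theorem sum_big_deg_le (G : Finset (Finset α)) {Y : ℝ} (hY : 0 < Y) {A : ℕ} (hA : 2 * Y ≤ A) :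
    ((∑ e ∈ G.filter (fun e => A < deg G e), deg G e : ℕ) : ℝ) ≤ 4 * Y * shape G Y := by
  push_cast
  rw [shape, mul_sum]
  refine (sum_le_sum fun e he => ?_).trans (sum_le_sum_of_subset_of_nonneg (filter_subset _ _)
    fun e _ _ => mul_nonneg (by positivity) (phi_nonneg _))
  have h1 : (A : ℝ) < deg G e := by exact_mod_cast (mem_filter.1 he).2
  exact le_phi_of_ge hY (by linarith)

theorem card_small_deg_le (G : Finset (Finset α)) {Y : ℝ} (hY : 0 < Y) {a : ℕ}
    (ha : (a : ℝ) ≤ Y / 4) :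
    ((G.filter fun e => deg G e ≤ a).card : ℝ) ≤ 8 * shape G Y := by
  rw [shape, mul_sum, card_eq_sum_ones, Nat.cast_sum]
  refine (sum_le_sum fun e he => ?_).trans (sum_le_sum_of_subset_of_nonneg (filter_subset _ _)
    fun e _ _ => mul_nonneg (by norm_num) (phi_nonneg _))
  have h1 : (deg G e : ℝ) ≤ a := by exact_mod_cast (mem_filter.1 he).2
  have hz : (deg G e : ℝ) / Y ≤ 1 / 4 := by rw [div_le_iff₀ hY]; linarith
  rw [phi, if_neg (by linarith), if_neg (by linarith)]
  push_cast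
  linarith

theorem tri_card_le (G : Finset (Finset α)) {Y : ℝ} (hY : 0 < Y) :
    3 * ((tri G).card : ℝ) ≤ 2 * Y * G.card + 4 * Y * shape G Y := by
  have h : (3 * (tri G).card : ℝ) = ∑ e ∈ G, (deg G e : ℝ) := by exact_mod_cast (sum_deg G).symm
  rw [h, shape, mul_sum, show 2 * Y * (G.card : ℝ) = ∑ _e ∈ G, 2 * Y by
    rw [sum_const, nsmul_eq_mul]; ring, ← sum_add_distrib]
  refine sum_le_sum fun e _ => ?_
  have h0 : 0 ≤ 4 * Y * phi (deg G e / Y - 1) := mul_nonneg (by positivity) (phi_nonneg _)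
  rcases le_or_gt (deg G e : ℝ) (2 * Y) with h1 | h1
  · linarith
  · linarith [le_phi_of_ge hY h1.le]

theorem three_iso_le_low (G : Finset (Finset α)) : 3 * (iso G).card ≤ (low G).card := by
  have h : ∑ t ∈ iso G, (sides t).card = ((iso G).biUnion sides).card :=
    (card_biUnion fun t ht u hu hne => disjoint_left.2 fun e he he' =>
      hne (iso_unique ht hu he he')).symm
  have h3 : ∀ t ∈ iso G, (sides t).card = 3 := fun t ht => card_sides (mem_filter.1 ht).1
  rw [sum_congr rfl h3, sum_const, smul_eq_mul] at h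
  rw [mul_comm 3, h]
  refine card_le_card (biUnion_subset.2 fun t ht e he => ?_)
  exact mem_filter.2 ⟨side_mem (mem_filter.1 ht).1 he, ((mem_filter.1 ht).2 e he).le⟩

theorem leave_nonneg (G : Finset (Finset α)) : 0 ≤ leave G := by
  induction hn : G.card using Nat.strong_induction_on generalizing G with
  | _ n ih =>
    rw [leave]
    split_ifs
    · exact div_nonneg (sum_nonneg fun t _ => ih _ (hn ▸ card_removed_lt t.2) _ rfl)
        (Nat.cast_nonneg _)
    · exact Nat.cast_nonneg _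

/-- The triangles with a side above `A` are few. -/
theorem card_heavy_le (G : Finset (Finset α)) {Y : ℝ} (hY : 0 < Y) {A B : ℕ} (hA : 2 * Y ≤ A)
    (hAB : A ≤ B) : ((heavy B G).card : ℝ) ≤ 4 * Y * shape G Y := by
  refine le_trans ?_ (sum_big_deg_le G hY hA)
  refine Nat.cast_le.2 (le_trans ?_ (card_big_le G A))
  exact card_le_card fun t ht => by
    obtain ⟨h1, e, he, h2⟩ := mem_filter.1 ht
    exact mem_filter.2 ⟨h1, e, he, hAB.trans_lt h2⟩

theorem card_ssum_big_le (G : Finset (Finset α)) {Y : ℝ} (hY : 0 < Y) {A : ℕ} (hA : 2 * Y ≤ A) :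
    (((tri G).filter fun t => 3 * A < ssum G t).card : ℝ) ≤ 4 * Y * shape G Y := by
  refine le_trans ?_ (sum_big_deg_le G hY hA)
  refine Nat.cast_le.2 (le_trans ?_ (card_big_le G A))
  exact card_le_card fun t ht => by
    obtain ⟨h1, h2⟩ := mem_filter.1 ht
    exact mem_filter.2 ⟨h1, exists_big_of_ssum h1 h2⟩

/-- Heavy triangles die during the first picks. -/
theorem heavy_decay (G : Finset (Finset α)) {Y u : ℝ} (hY : 0 < Y) {A B k : ℕ} (hA : 2 * Y ≤ A)
    (hAB : A ≤ B) (hB : Y ^ 2 ≤ (B : ℝ)) (hu : 0 < u) (hk : u / 400000 ≤ (k : ℝ))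
    (hT : ((tri G).card : ℝ) ≤ 2 * (u * √Y) * Y) :
    run (fun K => ((heavy B K).card : ℝ)) k G ≤ 128 * 200000 ^ 2 * shape G Y * 4 := by
  have hP := shape_nonneg G Y
  refine (run_heavy_le G B k).trans ?_
  have hH0 := card_heavy_le G hY hA hAB
  rcases eq_or_lt_of_le (Nat.cast_nonneg (α := ℝ) (tri G).card) with hT0 | hT0
  · have : heavy B G = ∅ := by
      rw [heavy, card_eq_zero.1 (Nat.cast_eq_zero.1 hT0.symm), filter_empty]
    rw [this, card_empty, Nat.cast_zero, mul_zero]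
    positivity
  have hs0 : 0 < √Y := Real.sqrt_pos.2 hY
  set x := (k : ℝ) * ((B : ℝ) / (tri G).card) with hx
  have hk0 : (0 : ℝ) < k := by linarith
  have hx0 : 0 < x := mul_pos hk0 (div_pos (by nlinarith) hT0)
  have hexp : Real.exp (-x) ≤ 2 / x ^ 2 := by
    rw [Real.exp_neg, inv_le_comm₀ (Real.exp_pos _) (by positivity), inv_div]
    linarith [Real.quadratic_le_exp_of_nonneg hx0.le]
  have hxl : √Y / (4 * 200000) ≤ x := by
    rw [hx, ← mul_div_assoc, le_div_iff₀ hT0]
    calc √Y / (4 * 200000) * (tri G).card ≤ √Y / (4 * 200000) * (2 * (u * √Y) * Y) :=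
          mul_le_mul_of_nonneg_left hT (by positivity)
      _ = u / 400000 * (√Y * √Y * Y) := by ring
      _ = u / 400000 * Y ^ 2 := by rw [Real.mul_self_sqrt hY.le, sq]
      _ ≤ _ := mul_le_mul hk hB (by positivity) hk0.le
  have h2 : Y / (4 * 200000) ^ 2 ≤ x ^ 2 := by
    rw [← Real.sq_sqrt hY.le, ← div_pow]
    exact pow_le_pow_left₀ (by positivity) hxl 2
  have hxY : 2 / x ^ 2 * Y ≤ 128 * 200000 ^ 2 := by
    rw [div_mul_eq_mul_div, div_le_iff₀ (by positivity)]
    linarith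
  calc Real.exp (-x) * ((heavy B G).card : ℝ) ≤ 2 / x ^ 2 * (4 * Y * shape G Y) :=
        mul_le_mul hexp hH0 (Nat.cast_nonneg _) (by positivity)
    _ = 2 / x ^ 2 * Y * (4 * shape G Y) := by ring
    _ ≤ 128 * 200000 ^ 2 * (4 * shape G Y) := mul_le_mul_of_nonneg_right hxY (by positivity)
    _ = _ := by ring

/-- Isolated triangles need low edges. -/
theorem iso_bound {G H : Finset (Finset α)} (hH : H ⊆ G) {Y : ℝ} (hY : 16 ≤ Y) {A : ℕ}
    (hA : 2 * Y ≤ A) :
    ((iso H).card : ℝ) ≤ 35 * shape G Y + 8 / Y * (light G (3 * A) \ tri H).card := by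
  have hY0 : 0 < Y := by linarith
  have hP := shape_nonneg G Y
  set a := ⌊Y / 4⌋₊
  have ha1 : (a : ℝ) ≤ Y / 4 := Nat.floor_le (by positivity)
  have ha2 : Y / 8 ≤ (a : ℝ) := by
    have : Y / 4 < (a : ℝ) + 1 := Nat.lt_floor_add_one _
    linarith
  have h2 : ((a * (low H).card : ℕ) : ℝ) ≤ _ := Nat.cast_le.2 (low_le hH a (3 * A))
  push_cast at h2
  have h3 : (3 : ℝ) * (iso H).card ≤ (low H).card := by exact_mod_cast three_iso_le_low H
  have h4 := mul_le_mul_of_nonneg_left h3 (Nat.cast_nonneg (α := ℝ) a)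
  have h5 := mul_le_mul_of_nonneg_left (card_small_deg_le G hY0 ha1) (Nat.cast_nonneg (α := ℝ) a)
  have h6 := card_ssum_big_le G hY0 hA
  have h7 : Y / 8 * (3 * ((iso H).card : ℝ)) ≤ a * (3 * (iso H).card) :=
    mul_le_mul_of_nonneg_right ha2 (by positivity)
  rw [← mul_le_mul_iff_right₀ hY0, mul_add]
  have h8 : Y * (8 / Y * ((light G (3 * A) \ tri H).card : ℝ)) =
      8 * (light G (3 * A) \ tri H).card := by field_simp
  rw [h8]
  have h9 : (a : ℝ) * shape G Y ≤ Y / 4 * shape G Y := mul_le_mul_of_nonneg_right ha1 hP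
  nlinarith

/-- The excess of triangles is negligible at `u / 60` edges. -/
theorem excess_le {Y u m h i T : ℝ} (hY : 0 < Y) (hu : 0 < u) (hum : u * √Y = m)
    (hh : m / 2 ≤ h) (hi0 : 0 ≤ h - 3 * i) (hi : h - 3 * i ≤ u / 30) (hT0 : 0 ≤ T)
    (hT : T ≤ 2 * m * Y) : ((h - 3 * i) / h) ^ 3 * T ≤ u / 1000 := by
  have hs0 : 0 < √Y := Real.sqrt_pos.2 hY
  have hm : 0 < m := hum ▸ mul_pos hu hs0
  have hh0 : 0 < h := by linarith
  have hr : (h - 3 * i) / h ≤ 1 / (15 * √Y) := by
    rw [div_le_div_iff₀ hh0 (by positivity), one_mul]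
    calc (h - 3 * i) * (15 * √Y) ≤ u / 30 * (15 * √Y) :=
          mul_le_mul_of_nonneg_right hi (by positivity)
      _ = u * √Y / 2 := by ring
      _ ≤ _ := by rw [hum]; exact hh
  calc ((h - 3 * i) / h) ^ 3 * T ≤ (1 / (15 * √Y)) ^ 3 * (2 * (u * √Y) * Y) := by
        rw [hum]
        exact mul_le_mul (pow_le_pow_left₀ (div_nonneg hi0 hh0.le) hr 3) hT hT0 (by positivity)
    _ = u * (2 / 3375) * ((√Y * Y) / (√Y * √Y ^ 2)) := by field_simp; ring
    _ ≤ _ := by
        rw [Real.sq_sqrt hY.le, div_self (mul_pos hs0 hY).ne', mul_one]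
        linarith

/-- A graph at scale `Y` keeps order `m / Y^(5/2)` edges, up to the shape. -/
theorem stage_lower (G : Finset (Finset α)) {Y : ℝ} (hY : 16 ≤ Y) :
    (G.card : ℝ) / √Y - 10 ^ 17 * shape G Y - 400000 ≤ 1500 * Y ^ 2 * leave G := by
  have hY0 : 0 < Y := by linarith
  have hs4 : 4 ≤ √Y := by
    rw [show (4 : ℝ) = √(4 ^ 2) by rw [Real.sqrt_sq]; norm_num]
    exact Real.sqrt_le_sqrt (by linarith)
  have hs0 : 0 < √Y := by linarith
  have hP := shape_nonneg G Y
  set P := shape G Y with hPdef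
  have hF0 : 0 ≤ 1500 * Y ^ 2 * leave G := mul_nonneg (by positivity) (leave_nonneg G)
  set m := (G.card : ℝ) with hm
  set u := m / √Y with hu
  rcases le_or_gt u 400000 with hu1 | hu1
  · linarith
  rcases le_or_gt u P with hu2 | hu2
  · linarith
  have hum : u * √Y = m := div_mul_cancel₀ m hs0.ne'
  have hum4 : 4 * u ≤ m := by
    rw [← hum, mul_comm]; exact mul_le_mul_of_nonneg_left hs4 (by linarith)
  set k := ⌊u / 200000⌋₊
  have hk1 : (k : ℝ) ≤ u / 200000 := Nat.floor_le (by linarith)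
  have hk2 : u / 400000 ≤ (k : ℝ) := by
    have : u / 200000 < (k : ℝ) + 1 := Nat.lt_floor_add_one _
    linarith
  set B := ⌈Y ^ 2⌉₊
  have hB1 : Y ^ 2 ≤ (B : ℝ) := Nat.le_ceil _
  have hY2 : 16 * Y ≤ Y ^ 2 := by rw [sq]; exact mul_le_mul_of_nonneg_right hY hY0.le
  have hB2 : 2 * (B : ℝ) + 2 / 3 ≤ 5 * Y ^ 2 := by
    have : (B : ℝ) < Y ^ 2 + 1 := Nat.ceil_lt_add_one (by positivity)
    linarith
  set A := ⌈2 * Y⌉₊
  have hA1 : 2 * Y ≤ (A : ℝ) := Nat.le_ceil _
  have hA2 : (A : ℝ) ≤ 3 * Y := by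
    have : (A : ℝ) < 2 * Y + 1 := Nat.ceil_lt_add_one (by positivity)
    linarith
  have hAB : A ≤ B := Nat.ceil_mono (by linarith)
  have hT0 : ((tri G).card : ℝ) ≤ 2 * m * Y := by
    have h1 := tri_card_le G hY0
    have h2 := mul_le_mul_of_nonneg_left (show P ≤ m by linarith) hY0.le
    linarith
  have hmain := run_le (φ := fun H => (u / 180 - u / 1000 - 35 * P)
      + (-(8 / Y)) * ((light G (3 * A) \ tri H).card : ℝ) + (-3) * ((heavy B H).card : ℝ))
    (ψ := fun H => 0 + 5 * Y ^ 2 * leave H + 0 * leave H) k G fun H hH hc => by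
    have hc' : m ≤ (H.card : ℝ) + 3 * k := by rw [hm]; exact_mod_cast hc
    set i := ⌊((H.card : ℝ) - u / 60) / 3⌋₊
    have hi1 : (i : ℝ) ≤ ((H.card : ℝ) - u / 60) / 3 := Nat.floor_le (by linarith)
    have hi2 : ((H.card : ℝ) - u / 60) / 3 < (i : ℝ) + 1 := Nat.lt_floor_add_one _
    have h6 : 3 * i + 6 ≤ H.card := by
      have : (3 : ℝ) * i + 6 ≤ H.card := by linarith
      exact_mod_cast this
    have hL := leave_lower B i H h6
    have hex := excess_le (i := (i : ℝ)) (h := (H.card : ℝ)) hY0 (by linarith) hum (by linarith)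
      (by linarith) (by linarith) (Nat.cast_nonneg (tri H).card)
      (le_trans (Nat.cast_le.2 (card_le_card (tri_mono hH))) hT0)
    have hiso := iso_bound hH hY hA1
    rw [← hPdef] at hiso
    have hcoef := mul_le_mul_of_nonneg_right hB2 (leave_nonneg H)
    linarith
  rw [run_affine, run_affine, run_leave] at hmain
  have hheavy := heavy_decay G hY0 hA1 hAB hB1 (by linarith) hk2 (hum ▸ hT0)
  rw [← hPdef] at hheavy
  have hdead := run_dead_le G (3 * A) k
  push_cast at hdead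
  have h8 : 8 / Y * run (fun K => ((light G (3 * A) \ tri K).card : ℝ)) k G ≤ 72 * k := by
    refine (mul_le_mul_of_nonneg_left hdead (by positivity)).trans ?_
    rw [div_mul_eq_mul_div, div_le_iff₀ hY0]
    have := mul_le_mul_of_nonneg_left hA2 (Nat.cast_nonneg (α := ℝ) k)
    linarith
  linarith

end Vale.Agent.P046.Lower
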